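import Vale.Agent.P167.H662.D2.D
import Vale.Agent.P167.H825.S.L2

/-!
# P167, general `q`, L2S (d): **the loops at the holes**

`frame_d`: the product over the loops which visit the boxes of the holes is at least the product of the
factors of the tips, up to `A ^ (N₁ + 1)`. `frameD`: the literal form.
-/

namespace Vale.Agent.P167.H662.D2

open Finset
open Vale.Agent.P167.Top
open Vale.Agent.P167.A (plane)
open Vale.Agent.P167.BR (sites be)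
open Vale.Agent.P167.FK (Bq Good)
open Vale.Agent.P167.E6 (IsPolygon Encloses dir)
open Vale.Agent.P167.XDL (bS mem_bS)
open Vale.Agent.P167.H199 (strand ret Returns ret_min ret_le Gap mem_strand self_mem_strand)
open Vale.Agent.P167.H685 (LE mem_LE)
open Vale.Agent.P167.H825 (enl pdir Marks)
open Vale.Agent.P167.H825.Q (Row Bc frow)
open Vale.Agent.P167.H680.T (rowC uI frows mem_uI)
open Vale.Agent.P167.H662 (hsite)
open Vale.Agent.P167.H398.Q (hB bcol Ttip Cnf)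
open Vale.Agent.P167.H562.QM (MajA)
open Vale.Agent.P167.H871 Vale.Agent.P167.H871.Q
open Vale.Agent.P167.QX (lst exc_last out_stays wS fLp returns_loop TB VisL prod_by_loops)
open Vale.Agent.P167.H945.Q (face faces lrs SP tipL tipR relw natw Tc)
open Vale.Agent.P167.Enl

section frame

variable {l : ℕ} {p : ZMod l → ℤ × ℤ} {n : ℕ} {S₀ : Finset (ℤ × ℤ)} {Q : Marks} {bc : Bc}
  {θ β : ℝ} {ω : Cfg} {e : Ed}

theorem WW_nonneg (hθ : 0 < θ) (hθ' : θ ≤ Real.pi / 3) {δ : ℝ}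
    (i : (Fin l × Fin (Q.m + 1)) × Bool × Bool) : 0 ≤ WW θ β p Q n bc δ i := by
  have hc := cos_ge hθ hθ'
  have hs := sin_ps hθ hθ'
  exact relw_nonneg hs (by rw [Real.sin_two_mul]; nlinarith) _ _ _ _

variable (hp : IsPolygon p) (hD : Encloses p S₀) (hQ : Q.Ok) {g δ : ℝ} (hg : Gap Q l g)
  (hδ : 0 < δ) (hδg : 4 * δ ≤ g) (hn : 1024 ≤ δ * n) (hb : bc.Ok l Q) (hbg : BGap l Q g bc)
  (hθ : 0 < θ) (hθ' : θ ≤ Real.pi / 3)
  (hβ : β = (θ - Real.pi) / 2 ∨ β = (Real.pi - 3 * θ) / 2)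

include hp hD hQ hg hδ hδg hn hb hbg hθ hθ' hβ in
/-- **A loop in the window of a mark.** -/
theorem loop_le (hf : H398.Q.Frz (frows θ β p Q n ⌊δ * n⌋₊ bc) ω) {R : ℕ}
    (hR1 : ⌊δ * n⌋₊ + 3 ≤ R) (hR2' : (2 * R : ℝ) + 8 < g * n)
    (x : Fin l × Fin (Q.m + 1)) {ℓ : Finset Ed} (hl : IsLoop ω ℓ)
    (hS : ∃ e ∈ bS (uI (frows θ β p Q n ⌊δ * n⌋₊ bc)), e ∈ ℓ)
    (hx : ∀ v ∈ vs ℓ, v ∈ Bq (hsite p Q n x) R) :
    ∏ e ∈ (bS (uI (frows θ β p Q n ⌊δ * n⌋₊ bc))).filter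
        (fun e => hdv e ∉ uI (frows θ β p Q n ⌊δ * n⌋₊ bc) ∧ e ∈ ℓ),
      gam (VV θ β p Q n bc δ ω) (WW θ β p Q n bc δ) (BB θ β p Q n bc δ ω) (c1 θ) e ≤
    fLp θ (uI (frows θ β p Q n ⌊δ * n⌋₊ bc)) (rowC θ (frows θ β p Q n ⌊δ * n⌋₊ bc) 0).ph ω ℓ := by
  have hpi := Real.pi_pos
  have hc := cos_ge hθ hθ'
  have hn16 : 16 ≤ δ * n := by linarith
  obtain ⟨hW, hWn⟩ := frame_holeW (θ := θ) (β := β) (bc := bc) hp hD hQ hg hδ hδg hn16 hb hbg hR1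
    hR2' x
  obtain ⟨P, U, hbd, hI⟩ := exists_win hW.kap hW.posA hW.posB hW.ltA hW.ltB
  have hvs : ∀ y ∈ ℓ, hdv y ∈ Bq (hsite p Q n x) R := fun y hy => hx _ (mem_image_of_mem _ hy)
  have hcol : (hτ l n Q bc x = 1 ∧ ∀ y ∈ ℓ, hdv y ∈ uI (frows θ β p Q n ⌊δ * n⌋₊ bc) →
      ω (hdv y) = false) ∨ (hτ l n Q bc x = -1 ∧ ∀ y ∈ ℓ,
        hdv y ∈ uI (frows θ β p Q n ⌊δ * n⌋₊ bc) → ω (hdv y) = true) := by
    have key : ∀ y ∈ ℓ, hdv y ∈ uI (frows θ β p Q n ⌊δ * n⌋₊ bc) → ω (hdv y) = bcol p Q bc n x :=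
      fun y hy hK => frz_box hp hD hQ hg hδ hδg hn16 hb hbg hf (R := (R : ℤ))
        (by push_cast; linarith) x hK (hvs y hy)
    rcases col_τ (bc := bc) (n := n) (p := p) x with ⟨a3, a4⟩ | ⟨a3, a4⟩
    · exact Or.inl ⟨a3, fun y hy hK => (key y hy hK).trans a4⟩
    · exact Or.inr ⟨a3, fun y hy hK => (key y hy hK).trans a4⟩
  -- an exit of the loop
  obtain ⟨e₀, he₀, he₀l⟩ := hS
  have hexit : ∃ e ∈ ℓ, hdv e ∉ uI (frows θ β p Q n ⌊δ * n⌋₊ bc) ∧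
      tlv e ∈ uI (frows θ β p Q n ⌊δ * n⌋₊ bc) := by
    by_contra hcon
    push Not at hcon
    rcases mem_bS.1 he₀ with ⟨h1, h2⟩ | ⟨h1, h2⟩
    · have h3 := QX.card_out_in (I := uI (frows θ β p Q n ⌊δ * n⌋₊ bc)) hl
      have h4 : (bS (uI (frows θ β p Q n ⌊δ * n⌋₊ bc))).filter
          (fun e => hdv e ∉ uI (frows θ β p Q n ⌊δ * n⌋₊ bc) ∧ e ∈ ℓ) = ∅ := by
        apply filter_eq_empty_iff.2
        rintro e he ⟨k1, k2⟩
        rcases mem_bS.1 he with ⟨k3, -⟩ | ⟨-, k3⟩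
        · exact k1 k3
        · exact hcon e k2 k1 k3
      rw [h4, card_empty] at h3
      have h5 := card_eq_zero.1 h3.symm
      have h6 : e₀ ∈ (bS (uI (frows θ β p Q n ⌊δ * n⌋₊ bc))).filter
          (fun e => hdv e ∈ uI (frows θ β p Q n ⌊δ * n⌋₊ bc) ∧ e ∈ ℓ) :=
        mem_filter.2 ⟨he₀, h1, he₀l⟩
      rw [h5] at h6
      exact absurd h6 (notMem_empty _)
    · exact hcon e₀ he₀l h1 h2
  obtain ⟨e₂, q1, q2, q3⟩ := hexit
  obtain ⟨e₁, h1, h2, h3, t₁, h4, h5⟩ := exists_pos hW hbd hI hl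
    (fun y hy hK => hWn _ (hvs y hy) hK) hcol q1 q2 q3
  set K := uI (frows θ β p Q n ⌊δ * n⌋₊ bc) with hK
  set s := (bS K).filter (fun e => hdv e ∉ K ∧ e ∈ ℓ) with hs
  have hT : ∀ e ∈ s, ∃ t : ℤ, H199.cang plane θ (rowC θ (frows θ β p Q n ⌊δ * n⌋₊ bc) 0).ph ω
        (strand (nx ω) (bS K) e) = θ / 4 * t + hτ l n Q bc x * ((3 * θ - Real.pi) / 2) ∧
      gam (VV θ β p Q n bc δ ω) (WW θ β p Q n bc δ) (BB θ β p Q n bc δ ω) (c1 θ) e *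
        (if 0 ≤ hτ l n Q bc x * t then 2 * Real.cos θ else 1) ≤
      wS θ K (rowC θ (frows θ β p Q n ⌊δ * n⌋₊ bc) 0).ph ω e := by
    intro e he
    obtain ⟨g1, g2, g3⟩ := mem_filter.1 he
    exact exit_le hp hD hQ hg hδ hδg hn hb hbg hθ hθ' hβ hf hR1 hR2' x g1 g2
      (returns_loop hl g3 g1) fun k _ => hvs _ (H199.loop_iter hl g3 k)
  choose! t ht1 ht2 using hT
  have he₁ : e₁ ∈ s := mem_filter.2 ⟨mem_bS.2 (Or.inr ⟨h2, h3⟩), h2, h1⟩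
  have htt : t e₁ = t₁ := by
    have h6 := (ht1 e₁ he₁).symm.trans h4
    have h7 : θ / 4 * ((t e₁ : ℝ) - t₁) = 0 := by linarith
    have h8 : (t e₁ : ℝ) - t₁ = 0 := by
      rcases mul_eq_zero.1 h7 with h | h
      · exfalso; linarith
      · exact h
    have h9 : (t e₁ : ℝ) = t₁ := by linarith
    exact_mod_cast h9
  unfold fLp
  refine prod_lower (φ := fun e => if 0 ≤ hτ l n Q bc x * (t e : ℝ) then 2 * Real.cos θ else 1) ht2
    (fun e _ => gam_nonneg (WW_nonneg hθ hθ') (c1_pos hθ hθ').le) (fun e _ => ?_) he₁ ?_ (by linarith)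
  · split_ifs
    · exact hc
    · exact le_rfl
  · rw [htt, if_pos h5]

include hp hQ hg hδ hδg hn in
/-- The exits with a factor are in loops which visit the holes. -/
theorem gam_vis {R₁ : ℤ} (hR : ⌊4 * δ * n⌋ ≤ R₁) {ℓ : Finset Ed} (hl : IsLoop ω ℓ)
    (hv : ¬ VisL (hB p Q n R₁ : Set (ℤ × ℤ)) ℓ) (heℓ : e ∈ ℓ) :
    gam (VV θ β p Q n bc δ ω) (WW θ β p Q n bc δ) (BB θ β p Q n bc δ ω) (c1 θ) e = 1 := by
  classical
  have hn16 : 16 ≤ δ * n := by linarith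
  have hno : ∀ x ∈ ℓ, hdv x ∉ hB p Q n ⌊4 * δ * n⌋ := fun x hx h =>
    hv ⟨x, hx, mem_coe.2 (hB_mono hR h)⟩
  have hfl : (⌊δ * n⌋₊ : ℝ) ≤ δ * n := Nat.floor_le (by positivity)
  have h4 : (⌊δ * n⌋₊ : ℤ) + 4 ≤ ⌊4 * δ * n⌋ := Int.le_floor.2 (by push_cast; linarith)
  refine gam_1 (fun i hi => ?_) fun hi => ?_
  · obtain ⟨y, b, c⟩ := i
    obtain ⟨-, h2, h3⟩ := mem_VT.1 hi
    have k1 := (alm_tp (θ := θ)).nm (mem_coe.1 (h3 0 h2.rt.spec.1))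
    rw [Function.iterate_zero, id] at k1
    have hk : ∃ k : Fin 3, k ≠ 2 ∧ H945.Q.ctr (frows θ β p Q n ⌊δ * n⌋₊ bc y) k =
        (frows θ β p Q n ⌊δ * n⌋₊ bc y).sq (te (frows θ β p Q n ⌊δ * n⌋₊ bc y) b) := by
      unfold te H945.Q.ctr
      by_cases ho : (frows θ β p Q n ⌊δ * n⌋₊ bc y).o = b
      · rw [if_pos ho]
        exact ⟨0, by decide, rfl⟩
      · rw [if_neg ho]
        exact ⟨1, by decide, rfl⟩
    obtain ⟨k, hk1, hk2⟩ := hk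
    simp only at k1
    rw [← hk2] at k1
    obtain ⟨z, hz⟩ := far_hole hp hQ hg hδ hδg hn16 y hk1 k1
    refine hno e heℓ (mem_hB.2 ⟨z, Bq_of (lt_of_le_of_lt hz ?_)⟩)
    have hρ : (⌊δ * n / 16⌋ : ℝ) ≤ δ * n / 16 := Int.floor_le _
    have h5 : 4 * δ * n < ⌊4 * δ * n⌋ + 1 := Int.lt_floor_add_one _
    have : ((⌊δ * n / 16⌋ + ⌊δ * n⌋₊ + 2 : ℤ) : ℝ) < ((⌊4 * δ * n⌋ : ℤ) : ℝ) := by
      push_cast; linarith
    exact_mod_cast this
  · obtain ⟨h1, h2, -, h3⟩ := mem_filter.1 hi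
    have hr := returns_loop hl heℓ h1
    rcases h3 with ⟨y, b, h3⟩ | ⟨⟨x, h3, h5⟩, -⟩
    · have hL : 1 ≤ (frows θ β p Q n ⌊δ * n⌋₊ bc y).L := by
        have hrow := rb_of (p := p) hQ hg hδ hδg hn16 y.1.2 (j := y.2) (by omega)
        have : (frows θ β p Q n ⌊δ * n⌋₊ bc y).L =
          eW p n Q ⌊δ * n⌋₊ y.1 y.2 - sW p n Q ⌊δ * n⌋₊ y.1 y.2 := H825.Q.srow_L _ _ _ _ _ _ _
        have := hrow.se
        omega
      have hw := (w_hB (θ := θ) (β := β) (bc := bc) hp hQ hg hδ hδg hn16 y b).2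
      rcases h3 with h3 | h3
      · refine hno e heℓ ?_
        rw [outer_mid (b := b) hL (w := hdv e) ⟨Or.inl (by rw [h3]; rfl), fun h =>
          h2 (row_sub y h)⟩]
        exact hB_mono h4 hw
      · have hlast := exc_last h2 hr
        have hm := hr.spec.1
        obtain ⟨m', hm'⟩ : ∃ m', ret (nx ω) (bS (uI (frows θ β p Q n ⌊δ * n⌋₊ bc))) e = m' + 1 :=
          ⟨ret (nx ω) (bS (uI (frows θ β p Q n ⌊δ * n⌋₊ bc))) e - 1, by omega⟩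
        have e1 : tlv (lst (uI (frows θ β p Q n ⌊δ * n⌋₊ bc)) ω e) = hdv ((nx ω)^[m'] e) := by
          unfold lst
          rw [hm', Function.iterate_succ_apply', tlv_nx]
        refine hno _ (H199.loop_iter hl heℓ m') ?_
        rw [← e1, outer_mid (b := b) hL
          (w := tlv (lst (uI (frows θ β p Q n ⌊δ * n⌋₊ bc)) ω e))
          ⟨Or.inr (by rw [h3]; rfl), fun h => hlast.2 (row_sub y h)⟩]
        exact hB_mono h4 hw
    · exact hno x (H199.strand_sub hl heℓ _ h3) h5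

/-- **The number of the exceptional strands.** -/
theorem card_BB (hgd : Good ω) {N₁ : ℕ}
    (hM : MajA (hB p Q n ⌊4 * δ * n⌋) (δ * n / 64) ω N₁) :
    (BB θ β p Q n bc δ ω).card ≤ 2 * (l * (Q.m + 1)) + N₁ := by
  classical
  set K := uI (frows θ β p Q n ⌊δ * n⌋₊ bc) with hK
  have hret : ∀ e ∈ bS K, Returns (nx ω) (bS K) e := fun e he => by
    obtain ⟨ℓ, hl, heℓ⟩ := hgd e
    exact returns_loop hl heℓ he
  have hstr : ∀ e, e ∈ bS K → hdv e ∉ K → Str K ω e := fun e he h =>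
    ⟨h, ((mem_bS.1 he).resolve_left fun h' => h h'.1).2, hret e he⟩
  set S := (bS K).filter fun e => hdv e ∉ K with hS
  set E : (Fin l × Fin (Q.m + 1)) × Bool → Finset Ed := fun i =>
    S.filter fun e => e = ee (frows θ β p Q n ⌊δ * n⌋₊ bc i.1) i.2 ∨
      lst K ω e = ee (frows θ β p Q n ⌊δ * n⌋₊ bc i.1) i.2 with hE
  set G := S.filter fun e => BigE (hB p Q n ⌊4 * δ * n⌋) (δ * n / 64) K ω e with hG
  have hsub : BB θ β p Q n bc δ ω ⊆ univ.biUnion E ∪ G := by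
    intro e he
    obtain ⟨h1, h2, -, h3⟩ := mem_filter.1 he
    have hSe : e ∈ S := mem_filter.2 ⟨h1, h2⟩
    rcases h3 with ⟨y, b, h3⟩ | h3
    · exact mem_union_left _ (mem_biUnion.2 ⟨(y, b), mem_univ _, mem_filter.2 ⟨hSe, h3⟩⟩)
    · exact mem_union_right _ (mem_filter.2 ⟨hSe, h3⟩)
  have hc1 : (univ.biUnion E).card ≤ 2 * (l * (Q.m + 1)) := by
    have h1 := card_biUnion_le_card_mul univ E 1 fun i _ => card_le_one.2 fun a ha b hb => by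
      obtain ⟨a1, a2⟩ := mem_filter.1 ha
      obtain ⟨b1, b2⟩ := mem_filter.1 hb
      exact end_unique (hstr a (mem_filter.1 a1).1 (mem_filter.1 a1).2)
        (hstr b (mem_filter.1 b1).1 (mem_filter.1 b1).2) a2 b2
    refine h1.trans ?_
    rw [card_univ, Fintype.card_prod, Fintype.card_prod, Fintype.card_fin, Fintype.card_fin,
      Fintype.card_bool]
    omega
  have hc2 : G.card ≤ N₁ := by
    have hinj : Function.Injective (nx ω) := (s_nx ω).1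
    have huniq : ∀ e ∈ G, ∀ e' ∈ G, ∀ x, x ∈ strand (nx ω) (bS K) e →
        x ∈ strand (nx ω) (bS K) e' → e = e' := fun e he e' he' x h1 h2 =>
      H199.strand_unique hinj (mem_filter.1 (mem_filter.1 he).1).1
        (mem_filter.1 (mem_filter.1 he').1).1 h1 h2
    have hself : ∀ e ∈ G, e ∈ strand (nx ω) (bS K) e := fun e he =>
      self_mem_strand (hret e (mem_filter.1 (mem_filter.1 he).1).1)
    have hgi : Set.InjOn (fun e => strand (nx ω) (bS K) e) G := fun e he e' he' h =>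
      huniq e he e' he' e (hself e he) ((show strand (nx ω) (bS K) e = strand (nx ω) (bS K) e'
        from h) ▸ hself e he)
    rw [← card_image_of_injOn hgi]
    refine hM _ (fun γ hγ => ?_) (fun γ hγ γ' hγ' hne => ?_) fun γ hγ => ?_
    · obtain ⟨e, he, rfl⟩ := mem_image.1 hγ
      exact QX.isSeg_strand (hret e (mem_filter.1 (mem_filter.1 he).1).1)
    · obtain ⟨e, he, rfl⟩ := mem_image.1 hγ
      obtain ⟨e', he', rfl⟩ := mem_image.1 hγ'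
      rw [Finset.disjoint_left]
      intro x hx hx'
      exact hne (by rw [huniq e he e' he' x hx hx'])
    · obtain ⟨e, he, rfl⟩ := mem_image.1 hγ
      exact (mem_filter.1 he).2
  calc (BB θ β p Q n bc δ ω).card ≤ (univ.biUnion E ∪ G).card := card_le_card hsub
    _ ≤ (univ.biUnion E).card + G.card := card_union_le _ _
    _ ≤ _ := by omega

/-- The factors of the tips. -/
theorem tip_eq : ∏ i, WW θ β p Q n bc δ i ^ (VV θ β p Q n bc δ ω i).card =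
    Ttip θ (frows θ β p Q n ⌊δ * n⌋₊ bc) ⌊δ * n / 16⌋ ω := by
  rw [Fintype.prod_prod_type]
  unfold Ttip
  refine prod_congr rfl fun y _ => ?_
  have e1 : Tc θ (uI (frows θ β p Q n ⌊δ * n⌋₊ bc)) (frows θ β p Q n ⌊δ * n⌋₊ bc y) 0
      ⌊δ * n / 16⌋ ω * Tc θ (uI (frows θ β p Q n ⌊δ * n⌋₊ bc)) (frows θ β p Q n ⌊δ * n⌋₊ bc y) 1
      ⌊δ * n / 16⌋ ω = (tipL θ (frows θ β p Q n ⌊δ * n⌋₊ bc y)).T
        (uI (frows θ β p Q n ⌊δ * n⌋₊ bc)) ⌊δ * n / 16⌋ ω *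
      (tipR θ (frows θ β p Q n ⌊δ * n⌋₊ bc y)).T (uI (frows θ β p Q n ⌊δ * n⌋₊ bc))
        ⌊δ * n / 16⌋ ω := by
    unfold Tc
    simp
  rw [e1, tp_prod, Fintype.prod_prod_type]
  refine prod_congr rfl fun b _ => ?_
  rw [tp_T]
  rfl

/-- The constant. -/
noncomputable def cA (θ : ℝ) (M : ℕ) : ℝ := (1 / c1 θ) ^ (2 * M + 1)

theorem one_le_cA (hθ : 0 < θ) (hθ' : θ ≤ Real.pi / 3) (M : ℕ) : 1 ≤ cA θ M := by
  have h1 := c1_pos hθ hθ'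
  have h2 := c1_le hθ hθ'
  exact one_le_pow₀ (by rw [le_div_iff₀ h1]; linarith)

include hp hD hQ hg hδ hδg hn hb hbg hθ hθ' hβ in
/-- **L2S (d).** The loops at the holes: the product of the factors of the tips is at most
`A ^ (N₁ + 1)` times the product over the loops which visit the boxes of radius `R₁ ≥ 4 δ n`. -/
theorem frame_d (hgd : Good ω) (hf : H398.Q.Frz (frows θ β p Q n ⌊δ * n⌋₊ bc) ω) {R₁ R' : ℤ}
    {N₁ : ℕ} (hR : ⌊4 * δ * n⌋ ≤ R₁) (hR' : (2 * R' : ℝ) + 8 < g * n)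
    (hC : Cnf p Q n R₁ R' ω) (hM : MajA (hB p Q n ⌊4 * δ * n⌋) (δ * n / 64) ω N₁) :
    Ttip θ (frows θ β p Q n ⌊δ * n⌋₊ bc) ⌊δ * n / 16⌋ ω ≤
      cA θ (l * (Q.m + 1)) ^ (N₁ + 1) *
        TB θ (uI (frows θ β p Q n ⌊δ * n⌋₊ bc)) (rowC θ (frows θ β p Q n ⌊δ * n⌋₊ bc) 0).ph
          (hB p Q n R₁) ω := by
  classical
  have hn0 : (0 : ℝ) ≤ n := Nat.cast_nonneg n
  have h1 := c1_pos hθ hθ'
  have h2 := c1_le hθ hθ'
  set K := uI (frows θ β p Q n ⌊δ * n⌋₊ bc) with hK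
  have q2 : 4 * δ * n ≤ g * n := mul_le_mul_of_nonneg_right hδg hn0
  have hfl : (⌊δ * n⌋₊ : ℝ) ≤ δ * n := Nat.floor_le (by positivity)
  obtain ⟨R, hR1, hR2, hRR⟩ : ∃ R : ℕ, ⌊δ * n⌋₊ + 3 ≤ R ∧ (2 * R : ℝ) + 8 < g * n ∧
      R' ≤ (R : ℤ) := by
    refine ⟨max (⌊δ * n⌋₊ + 3) R'.toNat, le_max_left _ _, ?_, ?_⟩
    · rcases max_cases (⌊δ * n⌋₊ + 3) R'.toNat with ⟨h, -⟩ | ⟨h, h'⟩ <;> rw [h]
      · push_cast; linarith
      · have h3 : ((R'.toNat : ℤ) : ℝ) = R' := by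
          rw [Int.toNat_of_nonneg (by omega)]
        push_cast at h3
        rw [h3]
        exact hR'
    · exact (Int.self_le_toNat R').trans (by exact_mod_cast le_max_right _ _)
  set γ := gam (VV θ β p Q n bc δ ω) (WW θ β p Q n bc δ) (BB θ β p Q n bc δ ω) (c1 θ) with hγ
  have hγ0 : ∀ e, 0 ≤ γ e := fun e => gam_nonneg (WW_nonneg hθ hθ') h1.le
  -- the product over the exits
  have hprod : ∏ e ∈ (bS K).filter (fun e => hdv e ∉ K), γ e =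
      Ttip θ (frows θ β p Q n ⌊δ * n⌋₊ bc) ⌊δ * n / 16⌋ ω *
        c1 θ ^ (BB θ β p Q n bc δ ω).card := by
    rw [← tip_eq]
    refine prod_gam (fun i e he => ?_) fun e he => ?_
    · obtain ⟨-, g1, -⟩ := mem_VT.1 he
      exact mem_filter.2 ⟨g1.mem, g1.out⟩
    · obtain ⟨g1, g2, -⟩ := mem_filter.1 he
      exact mem_filter.2 ⟨g1, g2⟩
  have hle : ∏ e ∈ (bS K).filter (fun e => hdv e ∉ K), γ e ≤
      TB θ K (rowC θ (frows θ β p Q n ⌊δ * n⌋₊ bc) 0).ph (hB p Q n R₁) ω := by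
    rw [prod_by_loops hgd (bS K) (fun e => hdv e ∉ K) γ,
      ← prod_filter_mul_prod_filter_not (LE ω (bS K)) (VisL (hB p Q n R₁ : Set (ℤ × ℤ)))]
    have e1 : ∏ ℓ ∈ (LE ω (bS K)).filter (fun ℓ => ¬ VisL (hB p Q n R₁ : Set (ℤ × ℤ)) ℓ),
        ∏ e ∈ (bS K).filter (fun e => hdv e ∉ K ∧ e ∈ ℓ), γ e = 1 := by
      refine prod_eq_one fun ℓ hℓ => prod_eq_one fun e he => ?_
      obtain ⟨g1, g2⟩ := mem_filter.1 hℓ
      exact gam_vis hp hQ hg hδ hδg hn hR (mem_LE.1 g1).1 g2 (mem_filter.1 he).2.2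
    rw [e1, mul_one]
    unfold TB
    refine prod_le_prod (fun ℓ _ => prod_nonneg fun e _ => hγ0 e) fun ℓ hℓ => ?_
    obtain ⟨g1, g2⟩ := mem_filter.1 hℓ
    obtain ⟨hl, hS⟩ := mem_LE.1 g1
    obtain ⟨x, hx⟩ := hC ℓ hl g2
    refine loop_le hp hD hQ hg hδ hδg hn hb hbg hθ hθ' hβ hf hR1 hR2 x hl hS fun v hv => ?_
    have h3 := hx v hv
    unfold FK.Bq at h3 ⊢
    rw [mem_product, mem_Ico, mem_Ico] at h3 ⊢
    omega
  have hcard := card_BB (θ := θ) (β := β) (bc := bc) hgd hM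
  have hT0 : 0 ≤ Ttip θ (frows θ β p Q n ⌊δ * n⌋₊ bc) ⌊δ * n / 16⌋ ω := by
    rw [← tip_eq]
    exact prod_nonneg fun i _ => pow_nonneg (WW_nonneg hθ hθ' i) _
  have hTB := hprod ▸ hle
  set b := (BB θ β p Q n bc δ ω).card with hbdef
  have hTB0 : 0 ≤ TB θ K (rowC θ (frows θ β p Q n ⌊δ * n⌋₊ bc) 0).ph (hB p Q n R₁) ω :=
    (mul_nonneg hT0 (pow_nonneg h1.le _)).trans hTB
  have h3 : Ttip θ (frows θ β p Q n ⌊δ * n⌋₊ bc) ⌊δ * n / 16⌋ ω ≤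
      (1 / c1 θ) ^ b * TB θ K (rowC θ (frows θ β p Q n ⌊δ * n⌋₊ bc) 0).ph (hB p Q n R₁) ω := by
    rw [one_div, inv_pow, inv_mul_eq_div, le_div_iff₀ (pow_pos h1 _)]
    exact hTB
  refine h3.trans (mul_le_mul_of_nonneg_right ?_ hTB0)
  unfold cA
  rw [← pow_mul]
  refine pow_le_pow_right₀ (by rw [le_div_iff₀ h1]; linarith) ?_
  have : (2 * (l * (Q.m + 1)) + 1) * (N₁ + 1) =
      2 * (l * (Q.m + 1)) * N₁ + 2 * (l * (Q.m + 1)) + N₁ + 1 := by ring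
  rw [this]
  have := Nat.zero_le (2 * (l * (Q.m + 1)) * N₁)
  omega

include hp hD hQ hg hδ hδg hn hb hbg hθ hθ' hβ in
/-- **L2S (d)** with the radius `κ₁ n`. -/
theorem l2s_d (hgd : Good ω) (hf : H398.Q.Frz (frows θ β p Q n ⌊δ * n⌋₊ bc) ω) {κ₁ : ℝ}
    (hκ : 2 * δ ≤ κ₁) (hκg : 4 * κ₁ ≤ g) {R₁ : ℤ} {N₁ : ℕ} (hR : ⌊4 * δ * n⌋ ≤ R₁)
    (hC : Cnf p Q n R₁ ⌊κ₁ * n⌋ ω) (hM : MajA (hB p Q n ⌊4 * δ * n⌋) (δ * n / 64) ω N₁) :
    Ttip θ (frows θ β p Q n ⌊δ * n⌋₊ bc) ⌊δ * n / 16⌋ ω ≤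
      cA θ (l * (Q.m + 1)) ^ (N₁ + 1) *
        TB θ (uI (frows θ β p Q n ⌊δ * n⌋₊ bc)) (rowC θ (frows θ β p Q n ⌊δ * n⌋₊ bc) 0).ph
          (hB p Q n R₁) ω := by
  have hn0 : (0 : ℝ) ≤ n := Nat.cast_nonneg n
  have q1 : 2 * δ * n ≤ κ₁ * n := mul_le_mul_of_nonneg_right hκ hn0
  have q2 : 4 * κ₁ * n ≤ g * n := mul_le_mul_of_nonneg_right hκg hn0
  have q3 : (⌊κ₁ * n⌋ : ℝ) ≤ κ₁ * n := Int.floor_le _
  exact frame_d hp hD hQ hg hδ hδg hn hb hbg hθ hθ' hβ hgd hf hR (by linarith) hC hM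

end frame

/-- Every square is the head of an edge. -/
theorem exists_hd (v : ℤ × ℤ) : ∃ e : Ed, hdv e = v := by
  obtain ⟨a, b⟩ := v
  by_cases h : Even (a + b)
  · exact ⟨Sum.inr (a, b), by simp [hdv, h]⟩
  · exact ⟨Sum.inl (a, b), by simp [hdv, h]⟩

/-- **Part (d) of `L2S`**, literal form. -/
theorem frameD {θ β : ℝ} (hθ : 0 < θ) (hθ' : θ ≤ Real.pi / 3)
    (hβ : β = (θ - Real.pi) / 2 ∨ β = (Real.pi - 3 * θ) / 2) : H825.S.FrameD θ β := by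
  intro l _ p S₀ hp hD Q hQ bc hb g hg hbg
  refine ⟨cA θ (l * (Q.m + 1)), if 0 < g then g / 4 else 1, 1024, one_le_cA hθ hθ' _, ?_, ?_⟩
  · split_ifs
    · positivity
    · norm_num
  intro δ hδ hδ1 n hn hn1 R₁ R' N₁ hR hR' ω hgd hf hC hM
  by_cases hg0 : 0 < g
  · rw [if_pos hg0] at hδ1
    exact frame_d hp hD hQ hg hδ (by linarith) hn1 hb hbg hθ hθ' hβ hgd hf hR hR' hC hM
  · exfalso
    push Not at hg0
    have hn0 : (0 : ℝ) ≤ n := Nat.cast_nonneg n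
    have h1 : (R' : ℝ) < 0 := by
      have := mul_nonpos_of_nonpos_of_nonneg hg0 hn0
      linarith
    have h2 : R' < 0 := by exact_mod_cast h1
    have h3 : 0 < R₁ := by
      have : (1 : ℤ) ≤ ⌊4 * δ * n⌋ := Int.le_floor.2 (by push_cast; linarith)
      omega
    let x : Fin l × Fin (Q.m + 1) := (⟨0, Nat.pos_of_ne_zero (NeZero.ne l)⟩, 0)
    obtain ⟨e, he⟩ := exists_hd (hsite p Q n x)
    obtain ⟨ℓ, hl, heℓ⟩ := hgd e
    obtain ⟨y, hy⟩ := hC ℓ hl ⟨e, heℓ, mem_coe.2 (mem_hB.2 ⟨x, by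
      rw [he]
      unfold FK.Bq
      rw [mem_product, mem_Ico, mem_Ico]
      omega⟩)⟩
    have h4 := hy _ (mem_image_of_mem _ heℓ)
    unfold FK.Bq at h4
    rw [mem_product, mem_Ico, mem_Ico] at h4
    omega

end Vale.Agent.P167.H662.D2
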