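import Vale.Agent.P167.H871.Q.Win
import Vale.Agent.P167.H871.Q.Ext
import Vale.Agent.P167.H871.Q.Arc
import Vale.Agent.P167.QX.Kappa

/-!
# P167, general `q`, L2S (d): the window of a hole, a loop has a strand of positive type

Feet of the strands in the window, the arcs inside the frozen rows, and the order argument.
-/

namespace Vale.Agent.P167.H662.D2

open Finset
open Vale.Agent.P167.Top
open Vale.Agent.P167.A (plane)
open Vale.Agent.P167.XDL (bS mem_bS)
open Vale.Agent.P167.H199 (strand ret Returns ret_min)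
open Vale.Agent.P167.H871 Vale.Agent.P167.H871.Q

/-! ### the sites of an edge -/

theorem M4_sqL {s s' : ℤ × ℤ} {t t' : ℤ} (h : M4 s t = M4 s' t') (h' : sqL s t = sqL s' t') :
    s = s' ∧ t % 4 = t' % 4 := by
  rw [M4_eq, M4_eq] at h
  unfold sqL at h'
  obtain ⟨x, y⟩ := s
  obtain ⟨x', y'⟩ := s'
  simp only [Prod.mk.injEq] at h h' ⊢
  rcases head_cases t with ⟨a, b, c⟩ | ⟨a, b, c⟩ | ⟨a, b, c⟩ | ⟨a, b, c⟩ <;>
    rcases head_cases t' with ⟨a', b', c'⟩ | ⟨a', b', c'⟩ | ⟨a', b', c'⟩ | ⟨a', b', c'⟩ <;>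
    rw [b, c, b', c'] at h <;> simp only [a, a'] at h' <;> norm_num at h' <;> omega

theorem ls_out {y : Ed} {s : ℤ × ℤ} {t : ℤ} (h : P4 y = M4 s t) (h1 : hdv y = sqL s t) :
    ls y = s ∧ rs y = s + vec t := by
  obtain ⟨r1, r2, r3, r4, r5, r6⟩ := rs_eq y
  obtain ⟨e1, e2⟩ := M4_sqL (h.symm.trans r2) (h1.symm.trans r3)
  refine ⟨e1.symm, ?_⟩
  rw [r1, ← e1, vec_eq e2]

theorem ls_in {x : Ed} {s : ℤ × ℤ} {t : ℤ} (h : P4 x = M4 s t) (h1 : tlv x = sqL s t) :
    rs x = s ∧ ls x = s + vec t := by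
  obtain ⟨r1, r2, r3, r4, r5, r6⟩ := rs_eq x
  have h2 : P4 x = M4 (rs x) (hd4 x + 1) := by
    rw [r2, r1, show hd4 x + 1 = hd4 x - 1 + 2 by ring, M4_rev]
  obtain ⟨e1, e2⟩ := M4_sqL (h.symm.trans h2) (h1.symm.trans r6)
  refine ⟨e1.symm, ?_⟩
  have h3 := (vec_nt (hd4 x - 1)).1
  rw [show hd4 x - 1 + 2 = hd4 x + 1 by ring] at h3
  rw [e1, r1, vec_eq e2, h3]
  abel

theorem M4_two {s s' : ℤ × ℤ} {t t' : ℤ} (h : M4 s t = M4 s' t') :
    (s = s' ∧ t % 4 = t' % 4) ∨ (s = s' + vec t' ∧ t % 4 = (t' - 2) % 4) := by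
  rw [M4_eq, M4_eq] at h
  unfold vec
  obtain ⟨x, y⟩ := s
  obtain ⟨x', y'⟩ := s'
  simp only [Prod.mk.injEq, Prod.mk_add_mk] at h ⊢
  rcases head_cases t with ⟨a, b, c⟩ | ⟨a, b, c⟩ | ⟨a, b, c⟩ | ⟨a, b, c⟩ <;>
    rcases head_cases t' with ⟨a', b', c'⟩ | ⟨a', b', c'⟩ | ⟨a', b', c'⟩ | ⟨a', b', c'⟩ <;>
    rw [b, c, b', c'] at h <;> rw [b', c'] <;> omega

/-- The left square of a side decides the direction. -/
theorem side_of {D : Set (ℤ × ℤ)} {s s' : ℤ × ℤ} {t t' : ℤ} (h : M4 s t = M4 s' t')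
    (h1 : sqL s t ∈ D) (h2 : sqL s' (t' - 1) ∉ D) : sqL s t = sqL s' t' := by
  rcases M4_two h with ⟨rfl, h3⟩ | ⟨rfl, h3⟩
  · exact sqL_congr h3
  · exfalso
    rw [sqL_congr h3, sqL_next] at h1
    exact h2 h1

/-! ### the next exit of a loop -/

/-- A loop which enters `K` leaves `K`; site functions preserved inside `K`. -/
theorem next_exit {K : Finset (ℤ × ℤ)} {ω : Cfg} {ℓ : Finset Ed} (hl : IsLoop ω ℓ) {x : Ed}
    (hx : x ∈ ℓ) (h1 : hdv x ∈ K) {e : Ed} (he : e ∈ ℓ) (h2 : hdv e ∉ K) :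
    ∃ y ∈ ℓ, hdv y ∉ K ∧ tlv y ∈ K ∧
      ∀ f : Ed → ℤ × ℤ, (∀ w ∈ ℓ, hdv w ∈ K → f (nx ω w) = f w) → f y = f x := by
  classical
  have hex : ∃ m, hdv ((nx ω)^[m] x) ∉ K := by
    obtain ⟨m, hm⟩ := (H685.loop_gen hl hx e).1 he
    exact ⟨m, by rw [hm]; exact h2⟩
  have hs := Nat.find_spec hex
  have hmin : ∀ k < Nat.find hex, hdv ((nx ω)^[k] x) ∈ K := fun k hk => by
    have := Nat.find_min hex hk
    push Not at this
    exact this
  have hpos : 0 < Nat.find hex := by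
    rcases Nat.eq_zero_or_pos (Nat.find hex) with h | h
    · rw [h] at hs
      exact absurd h1 hs
    · exact h
  obtain ⟨k, hk⟩ : ∃ k, Nat.find hex = k + 1 := ⟨Nat.find hex - 1, by omega⟩
  have hmem : ∀ k, (nx ω)^[k] x ∈ ℓ := fun k => H199.loop_iter hl hx k
  refine ⟨(nx ω)^[Nat.find hex] x, hmem _, hs, ?_, fun f hf => ?_⟩
  · rw [hk, Function.iterate_succ_apply', tlv_nx]
    exact hmin k (by omega)
  · have key : ∀ k ≤ Nat.find hex, f ((nx ω)^[k] x) = f x := by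
      intro k
      induction k with
      | zero => intro _; rfl
      | succ k ih =>
        intro hk
        rw [Function.iterate_succ_apply', hf _ (hmem k) (hmin k (by omega)), ih (by omega)]
    exact key _ le_rfl

theorem ls_closed {ω : Cfg} {x : Ed} (h : ω (hdv x) = false) : ls (nx ω x) = ls x :=
  ((H166.nx_step ω x).2 h).1

theorem rs_open {ω : Cfg} {x : Ed} (h : ω (hdv x) = true) : rs (nx ω x) = rs x :=
  ((H166.nx_step ω x).1 h).2

/-! ### the table of the window -/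

/-- A foot: index `i`, face `f` (`0` side of the domain, `1` end, `2` far side), row `s` (`false`:
before the hole). -/
structure Ftt (A B R : ℕ) (κ : ℤ) (P : ℕ → ℤ × ℤ) (U : ℕ → ℤ) (z : ℤ × ℤ) (d : ℤ) (g : Ed)
    (i : ℕ) (f : ℤ) (s : Bool) : Prop where
  at_ : P4 g = M4 (Ls z d (P i)) (U i + d)
  a : s = false → i ≤ 2 * A ∧ U i = -f ∧ ((i < A ∧ f = 0) ∨ (i = A ∧ f = 1) ∨ (A < i ∧ f = 2))
  b : s = true → tB κ A R ≤ i ∧ i ≤ tB κ A R + 2 * B ∧ U i = κ + f ∧
    ((i < tB κ A R + B ∧ f = 2) ∨ (i = tB κ A R + B ∧ f = 1) ∨ (tB κ A R + B < i ∧ f = 0))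

/-- The signed face. -/
def sg' (s : Bool) (f : ℤ) : ℤ := if s then f else -f

/-- The rank. -/
def rk (s : Bool) (f : ℤ) : ℤ := if s then 2 - f else f

variable {z : ℤ × ℤ} {d κ : ℤ} {A B R : ℕ} {P : ℕ → ℤ × ℤ} {U : ℕ → ℤ} {θ c τ : ℝ} {S : Finset Ed}
  {a : Ed → Bool → ℝ} {ω : Cfg} {e : Ed}

/-- The foot of an edge with the two squares of a side. -/
theorem ft_of (hκ : κ = 0 ∨ κ = 1 ∨ κ = -1) (hAR : A < R) (hBR : B + 1 < R)
    (hW : WinI κ A B R P U) {g : Ed} {s : ℤ × ℤ}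
    {t : ℤ} (hg : P4 g = M4 s t) (h1 : sqL s t ∈ Wn z d κ A B R)
    (h2 : sqL s (t - 1) ∈ rA z d A R ∨ sqL s (t - 1) ∈ rB z d κ B R) :
    ∃ (i : ℕ) (f : ℤ) (b : Bool), Ftt A B R κ P U z d g i f b ∧
      (b = false ↔ sqL s (t - 1) ∈ rA z d A R) := by
  rcases h2 with h2 | h2
  · obtain ⟨i, f, h⟩ := foot_A hκ hW hg h1 h2
    refine ⟨i, f, false, ⟨h.at_, fun _ => ⟨?_, h.dir, h.face⟩, fun h => ?_⟩, iff_of_true rfl h2⟩
    · have := h.rg
      omega
    · cases h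
  · obtain ⟨i, f, h⟩ := foot_B hκ hW hg h1 h2
    refine ⟨i, f, true, ⟨h.at_, fun h => ?_, fun _ => ⟨h.lo, ?_, h.dir, h.face⟩⟩,
      iff_of_false (by decide) fun h3 => rA_rB hκ hAR hBR h3 h2⟩
    · cases h
    · have := h.hi
      omega

variable {i j : ℕ} {f f' : ℤ} {s s' : Bool}

theorem tB_bd : 2 * A + 1 < tB κ A R ∧ tB κ A R + 2 * B + 1 < 2 * A + 8 * R + 2 * B ∨ R ≤ 1 := by
  unfold tB
  split_ifs <;> omega

theorem Ftt.lt (h : Ftt A B R κ P U z d e i f s) (hAR : A < R) (hBR : B + 1 < R) :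
    i + 1 < 2 * A + 8 * R + 2 * B := by
  rcases tB_bd (κ := κ) (A := A) (B := B) (R := R) with h1 | h1
  · cases s with
    | false => have := (h.a rfl).1; omega
    | true => have := (h.b rfl).2.1; omega
  · omega

theorem Ftt.dirU (h : Ftt A B R κ P U z d e i f s) : U i = sg' s f + (if s then κ else 0) := by
  cases s with
  | false =>
    rw [(h.a rfl).2.1]
    simp [sg']
  | true =>
    rw [(h.b rfl).2.2.1]
    simp [sg', add_comm]

theorem Ftt.frg (h : Ftt A B R κ P U z d e i f s) : 0 ≤ f ∧ f ≤ 2 := by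
  cases s with
  | false => have := (h.a rfl).2.2; omega
  | true => have := (h.b rfl).2.2.2; omega

/-- **The table of the window, with the feet.** -/
theorem tab (h : HoleW θ c τ z d κ A B R S a) (hbd : Bd (RW κ A B R) (2 * A + 8 * R + 2 * B) P U 1)
    (hW : WinI κ A B R P U) (he : e ∈ S) (hr : Returns (nx ω) S e)
    (hin : ∀ k < ret (nx ω) S e, hdv ((nx ω)^[k] e) ∈ Wn z d κ A B R) :
    ∃ (i j : ℕ) (f f' : ℤ) (s s' : Bool) (t : ℤ), Ftt A B R κ P U z d e i f s ∧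
      Ftt A B R κ P U z d ((nx ω)^[ret (nx ω) S e] e) j f' s' ∧
      (s = false ↔ tlv e ∈ rA z d A R) ∧
      (s' = false ↔ hdv ((nx ω)^[ret (nx ω) S e] e) ∈ rA z d A R) ∧
      ls e = Ls z d (P i) ∧ rs e = Ls z d (P (i + 1)) ∧
      ls ((nx ω)^[ret (nx ω) S e] e) = Ls z d (P (j + 1)) ∧
      rs ((nx ω)^[ret (nx ω) S e] e) = Ls z d (P j) ∧ i ≠ j ∧
      H199.cang plane θ a ω (strand (nx ω) S e) = θ / 4 * t + τ * ((3 * θ - Real.pi) / 2) ∧
      t = sg' s' f' - sg' s f + (if i < j then -2 else 2) ∧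
      (s = s' → t = ∑ k ∈ range (ret (nx ω) S e), trn ω ((nx ω)^[k] e)) := by
  obtain ⟨hm, hS⟩ := hr.spec
  have hb := Bd.frame hbd z d
  have hin0 := hin 0 (by omega)
  rw [Function.iterate_zero, id] at hin0
  have htl : tlv ((nx ω)^[ret (nx ω) S e] e) ∈ Wn z d κ A B R := by
    obtain ⟨m', hm'⟩ : ∃ m', ret (nx ω) S e = m' + 1 := ⟨ret (nx ω) S e - 1, by omega⟩
    rw [hm', Function.iterate_succ_apply', tlv_nx]
    exact hin m' (by omega)
  have h1 := (h.mem e he).1 hin0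
  have h2 := (h.mem _ hS).2 htl
  have ht0 : tlv e ∉ Wn z d κ A B R := by
    rcases h1 with h1 | h1
    · exact rA_not h.kap h1
    · exact rB_not h.kap h1
  have hh0 : hdv ((nx ω)^[ret (nx ω) S e] e) ∉ Wn z d κ A B R := by
    rcases h2 with h2 | h2
    · exact rA_not h.kap h2
    · exact rB_not h.kap h2
  obtain ⟨v, t, hg, hl, hrr⟩ := exists_side e
  obtain ⟨v', t', hg', hl', hrr'⟩ := exists_side' ((nx ω)^[ret (nx ω) S e] e)
  obtain ⟨i, f, s, F, Fs⟩ := ft_of h.kap h.ltA h.ltB hW hg (by rw [← hl]; exact hin0)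
    (by rw [← hrr]; exact h1)
  obtain ⟨j, f', s', F', Fs'⟩ := ft_of h.kap h.ltA h.ltB hW hg' (by rw [← hl']; exact htl)
    (by rw [← hrr']; exact h2)
  rw [← hrr] at Fs
  rw [← hrr'] at Fs'
  have hi := F.lt h.ltA h.ltB
  have hj := F'.lt h.ltA h.ltB
  have hTn := bd_turn hb (ω := ω) (e := e) hm (by omega) (by omega) F.at_ F'.at_ hin ht0 hh0
  obtain ⟨hij, hT⟩ := hTn
  have e1 := side_of (D := Wn z d κ A B R) (hg.symm.trans F.at_) (by rw [← hl]; exact hin0)
    (hb.right i)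
  obtain ⟨a1, a2⟩ := ls_out F.at_ (hl.trans e1)
  have e2 := side_of (D := Wn z d κ A B R) (hg'.symm.trans F'.at_) (by rw [← hl']; exact htl)
    (hb.right j)
  obtain ⟨a3, a4⟩ := ls_in F'.at_ (hl'.trans e2)
  have b1 := hb.step i
  have b2 := hb.step j
  have hc := cang_strand (θ := θ) (a := a) he hr (fun k k1 k2 => by
    rw [XDL.ah_add_at, h.off _ (H199.ret_min k1 k2) (hin k k2), zero_mul])
  have hU := F.dirU
  have hU' := F'.dirU
  have hTA : ∀ h1 : s = false, ∀ h2 : s' = true, i < j := by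
    intro h1 h2
    have k1 := (F.a h1).1
    have k2 := (F'.b h2).1
    have k3 := h.posA
    have k4 := h.ltB
    rcases tB_bd (κ := κ) (A := A) (B := B) (R := R) with h5 | h5 <;> omega
  have hTB : ∀ h1 : s = true, ∀ h2 : s' = false, ¬ i < j := by
    intro h1 h2
    have k1 := (F.b h1).1
    have k2 := (F'.a h2).1
    have k3 := h.posA
    have k4 := h.ltB
    rcases tB_bd (κ := κ) (A := A) (B := B) (R := R) with h5 | h5 <;> omega
  refine ⟨i, j, f, f', s, s', sg' s' f' - sg' s f + (if i < j then -2 else 2), F, F', Fs, Fs',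
    a1, a2.trans b1.symm, a4.trans b2.symm, a3, hij, ?_, rfl, ?_⟩
  · rw [hc, hT]
    cases s with
    | false =>
      have g1 := Fs.1 rfl
      have p1 := (h.phA e he).1 hin0 g1
      cases s' with
      | false =>
        have g2 := Fs'.1 rfl
        have p2 := (h.phA _ hS).2 htl g2
        rw [p1, p2, hU, hU']
        push_cast
        simp
        ring
      | true =>
        have g2 : hdv ((nx ω)^[ret (nx ω) S e] e) ∈ rB z d κ B R := by
          rcases h2 with h2 | h2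
          · have := Fs'.2 h2
            cases this
          · exact h2
        have p2 := (h.phB _ hS).2 htl g2
        rw [p1, p2, hU, hU']
        push_cast
        simp
        ring
    | true =>
      have g1 : tlv e ∈ rB z d κ B R := by
        rcases h1 with h1 | h1
        · have := Fs.2 h1
          cases this
        · exact h1
      have p1 := (h.phB e he).1 hin0 g1
      cases s' with
      | false =>
        have g2 := Fs'.1 rfl
        have p2 := (h.phA _ hS).2 htl g2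
        rw [p1, p2, hU, hU']
        push_cast
        simp
        ring
      | true =>
        have g2 : hdv ((nx ω)^[ret (nx ω) S e] e) ∈ rB z d κ B R := by
          rcases h2 with h2 | h2
          · have := Fs'.2 h2
            cases this
          · exact h2
        have p2 := (h.phB _ hS).2 htl g2
        rw [p1, p2, hU, hU']
        push_cast
        simp
        ring
  · rintro rfl
    rw [hT, hU, hU']
    ring

/-! ### the order -/

theorem num_up {x y : Ed} (hAR : A < R) (hBR : B + 1 < R) (F : Ftt A B R κ P U z d e i f s)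
    (F' : Ftt A B R κ P U z d x j f' s') {f'' : ℤ} {s'' : Bool}
    (F'' : Ftt A B R κ P U z d y (j + 1) f'' s'')
    (ht : sg' s' f' - sg' s f + (if i < j then -2 else 2) < 0) :
    rk s f * ((2 * A + 8 * R + 2 * B : ℕ) : ℤ) + i <
      rk s'' f'' * ((2 * A + 8 * R + 2 * B : ℕ) : ℤ) + ((j + 1 : ℕ) : ℤ) := by
  have h1 := F.lt hAR hBR
  have h2 := F'.lt hAR hBR
  have h3 := F''.lt hAR hBR
  have h4 := tB_bd (κ := κ) (A := A) (B := B) (R := R)
  have a := F.a
  have b := F.b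
  have a' := F'.a
  have b' := F'.b
  have a'' := F''.a
  have b'' := F''.b
  have hf : f = 0 ∨ f = 1 ∨ f = 2 := by have := F.frg; omega
  have hf' : f'' = 0 ∨ f'' = 1 ∨ f'' = 2 := by have := F''.frg; omega
  clear F F' F''
  generalize tB κ A R = T at *
  cases s <;> cases s' <;> cases s'' <;> simp only [forall_const, reduceCtorEq, IsEmpty.forall_iff,
    sg', rk, Bool.false_eq_true, if_false, if_true] at a b a' b' a'' b'' ht ⊢ <;>
    rcases hf with rfl | rfl | rfl <;> rcases hf' with rfl | rfl | rfl <;> omega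

theorem num_dn {x y : Ed} (hAR : A < R) (hBR : B + 1 < R) (F : Ftt A B R κ P U z d e i f s)
    (F' : Ftt A B R κ P U z d x j f' s') {f'' : ℤ} {s'' : Bool} {k : ℕ} (hk : k + 1 = j)
    (F'' : Ftt A B R κ P U z d y k f'' s'')
    (ht : 0 < sg' s' f' - sg' s f + (if i < j then -2 else 2)) :
    rk s'' f'' * ((2 * A + 8 * R + 2 * B : ℕ) : ℤ) + (k : ℤ) <
      rk s f * ((2 * A + 8 * R + 2 * B : ℕ) : ℤ) + i := by
  have h1 := F.lt hAR hBR
  have h2 := F'.lt hAR hBR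
  have h3 := F''.lt hAR hBR
  have h4 := tB_bd (κ := κ) (A := A) (B := B) (R := R)
  have a := F.a
  have b := F.b
  have a' := F'.a
  have b' := F'.b
  have a'' := F''.a
  have b'' := F''.b
  have hf : f = 0 ∨ f = 1 ∨ f = 2 := by have := F.frg; omega
  have hf' : f'' = 0 ∨ f'' = 1 ∨ f'' = 2 := by have := F''.frg; omega
  clear F F' F''
  generalize tB κ A R = T at *
  cases s <;> cases s' <;> cases s'' <;> simp only [forall_const, reduceCtorEq, IsEmpty.forall_iff,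
    sg', rk, Bool.false_eq_true, if_false, if_true] at a b a' b' a'' b'' ht ⊢ <;>
    rcases hf with rfl | rfl | rfl <;> rcases hf' with rfl | rfl | rfl <;> omega

theorem P_inj (hbd : Bd (RW κ A B R) (2 * A + 8 * R + 2 * B) P U 1) {k k' : ℕ}
    (hk : k < 2 * A + 8 * R + 2 * B) (hk' : k' < 2 * A + 8 * R + 2 * B)
    (h : Ls z d (P k) = Ls z d (P k')) : k = k' := by
  have h1 := Ls_inj h
  rcases lt_trichotomy k k' with h2 | h2 | h2
  · exact absurd h1 (hbd.inj _ _ h2 (by omega))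
  · exact h2
  · exact absurd h1.symm (hbd.inj _ _ h2 (by omega))

/-- **Every loop in the window has a strand of positive type.** -/
theorem exists_pos {K : Finset (ℤ × ℤ)} (h : HoleW θ c τ z d κ A B R (bS K) a)
    (hbd : Bd (RW κ A B R) (2 * A + 8 * R + 2 * B) P U 1) (hW : WinI κ A B R P U)
    {ℓ : Finset Ed} (hl : IsLoop ω ℓ) (hin : ∀ y ∈ ℓ, hdv y ∉ K → hdv y ∈ Wn z d κ A B R)
    (hcol : (τ = 1 ∧ ∀ y ∈ ℓ, hdv y ∈ K → ω (hdv y) = false) ∨
      (τ = -1 ∧ ∀ y ∈ ℓ, hdv y ∈ K → ω (hdv y) = true))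
    {e₀ : Ed} (he₀ : e₀ ∈ ℓ) (h1 : hdv e₀ ∉ K) (h2 : tlv e₀ ∈ K) :
    ∃ e ∈ ℓ, hdv e ∉ K ∧ tlv e ∈ K ∧ ∃ t : ℤ,
      H199.cang plane θ a ω (strand (nx ω) (bS K) e) = θ / 4 * t + τ * ((3 * θ - Real.pi) / 2) ∧
      0 ≤ τ * t := by
  classical
  by_contra hcon
  push Not at hcon
  -- the exits
  set E : Finset Ed := (bS K).filter fun e => hdv e ∉ K ∧ e ∈ ℓ with hE
  have hmemE : ∀ e, e ∈ E ↔ e ∈ ℓ ∧ hdv e ∉ K ∧ tlv e ∈ K := by
    intro e
    rw [hE, mem_filter, mem_bS]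
    tauto
  have hT : ∀ e ∈ E, ∃ (i j : ℕ) (f f' : ℤ) (s s' : Bool) (t : ℤ) (x : Ed),
      Ftt A B R κ P U z d e i f s ∧ Ftt A B R κ P U z d x j f' s' ∧
      x ∈ ℓ ∧ hdv x ∈ K ∧
      ls e = Ls z d (P i) ∧ rs e = Ls z d (P (i + 1)) ∧
      ls x = Ls z d (P (j + 1)) ∧ rs x = Ls z d (P j) ∧
      t = sg' s' f' - sg' s f + (if i < j then -2 else 2) ∧ τ * t < 0 := by
    intro e he
    obtain ⟨g1, g2, g3⟩ := (hmemE e).1 he
    have heS : e ∈ bS K := mem_bS.2 (Or.inr ⟨g2, g3⟩)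
    have hr : Returns (nx ω) (bS K) e := QX.returns_loop hl g1 heS
    obtain ⟨i, j, f, f', s, s', t, F, F', -, -, l1, l2, l3, l4, -, hc, ht, -⟩ :=
      tab h hbd hW heS hr fun k hk => hin _ (H199.loop_iter hl g1 k) (QX.out_stays g2 hk)
    exact ⟨i, j, f, f', s, s', t, _, F, F', H199.loop_iter hl g1 _, (QX.exc_last g2 hr).1, l1, l2,
      l3, l4, ht, hcon e g1 g2 g3 t hc⟩
  choose! i j f f' s s' t x F F' hx hxK l1 l2 l3 l4 ht hneg using hT
  have hne : E.Nonempty := ⟨e₀, (hmemE e₀).2 ⟨he₀, h1, h2⟩⟩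
  have hnext : ∀ e ∈ E, ∃ y ∈ E, ∀ g : Ed → ℤ × ℤ,
      (∀ w ∈ ℓ, hdv w ∈ K → g (nx ω w) = g w) → g y = g (x e) := by
    intro e he
    obtain ⟨y, y1, y2, y3, y4⟩ := next_exit hl (hx e he) (hxK e he) he₀ h1
    exact ⟨y, (hmemE y).2 ⟨y1, y2, y3⟩, y4⟩
  rcases hcol with ⟨rfl, hcol⟩ | ⟨rfl, hcol⟩
  · obtain ⟨e, he, hmax⟩ := exists_max_image E (fun e => rk (s e) (f e) *
      ((2 * A + 8 * R + 2 * B : ℕ) : ℤ) + i e) hne
    obtain ⟨y, hy, hyg⟩ := hnext e he
    have h3 := hyg ls fun w hw hwK => ls_closed (hcol w hw hwK)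
    rw [l1 y hy, l3 e he] at h3
    have h4 := P_inj hbd (by have := (F y hy).lt h.ltA h.ltB; omega)
      ((F' e he).lt h.ltA h.ltB) h3
    have h5 := F y hy
    rw [h4] at h5
    have h6 := hneg e he
    rw [one_mul] at h6
    have h7 : t e < 0 := by exact_mod_cast h6
    rw [ht e he] at h7
    have h8 := num_up h.ltA h.ltB (F e he) (F' e he) h5 h7
    have h9 := hmax y hy
    omega
  · obtain ⟨e, he, hmin⟩ := exists_min_image E (fun e => rk (s e) (f e) *
      ((2 * A + 8 * R + 2 * B : ℕ) : ℤ) + i e) hne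
    obtain ⟨y, hy, hyg⟩ := hnext e he
    have h3 := hyg rs fun w hw hwK => rs_open (hcol w hw hwK)
    rw [l2 y hy, l4 e he] at h3
    have h4 := P_inj hbd ((F y hy).lt h.ltA h.ltB)
      (by have := (F' e he).lt h.ltA h.ltB; omega) h3
    have h6 := hneg e he
    have h7 : 0 < t e := by
      have : (0 : ℝ) < t e := by linarith
      exact_mod_cast this
    rw [ht e he] at h7
    have h8 := num_dn h.ltA h.ltB (F e he) (F' e he) h4 (F y hy) h7
    have h9 := hmin y hy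
    omega

end Vale.Agent.P167.H662.D2
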