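import Vale.Agent.P167.H662.D2.A
import Vale.Agent.P167.H592.U.Inst944
import Vale.Agent.P167.H592.U.Near

/-!
# P167, general `q`, L2S (d): the feet of the strands in the window of a mark of the frame

`foot_sq`: the squares at the feet. `nf`: a strand which does not visit the boxes of the marks has
both feet on the side of the domain or both on the far side, and turning `± 2`.
-/

namespace Vale.Agent.P167.H662.D2

open Finset
open Vale.Agent.P167.Top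
open Vale.Agent.P167.A (plane)
open Vale.Agent.P167.BR (sites)
open Vale.Agent.P167.FK (Bq Good)
open Vale.Agent.P167.E6 (IsPolygon Encloses dir face)
open Vale.Agent.P167.XDL (bS mem_bS)
open Vale.Agent.P167.H199 (strand ret Returns ret_min Gap)
open Vale.Agent.P167.H825 (enl pdir Marks)
open Vale.Agent.P167.H825.Q (Row Bc frow)
open Vale.Agent.P167.H680.T (rowC uI frows mem_uI)
open Vale.Agent.P167.H662 (hsite)
open Vale.Agent.P167.H398.Q (hB)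
open Vale.Agent.P167.H871 Vale.Agent.P167.H871.Q
open Vale.Agent.P167.QX (FrmG cs out_stays)
open Vale.Agent.P167.Enl

/-! ### the squares of an edge at a side -/

theorem sqL_out (s : ℤ × ℤ) (t : ℤ) : sqL s t = sqL s (t - 1) + vec (t + 1) := by
  unfold sqL vec
  rcases head_cases t with ⟨a, b, c⟩ | ⟨a, b, c⟩ | ⟨a, b, c⟩ | ⟨a, b, c⟩ <;>
    rcases head_cases (t + 1) with ⟨a', b', c'⟩ | ⟨a', b', c'⟩ | ⟨a', b', c'⟩ | ⟨a', b', c'⟩ <;>
    first
    | (exfalso; omega)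
    | (rw [b', c']
       have e1 : (t - 1) % 4 = (t % 4 + 3) % 4 := by omega
       rw [e1, a]
       ext <;> simp)

theorem dir_out {e : Ed} {t : ℤ} (h : P4 e = M4 (ls e) t) :
    hdv e = tlv e + vec (t + 1) := by
  obtain ⟨r1, r2, r3, r4, r5, r6⟩ := rs_eq e
  have h1 : (hd4 e - 1) % 4 = t % 4 := by
    rcases M4_two (r2.symm.trans h) with ⟨-, h1⟩ | ⟨h1, h2⟩
    · exact h1
    · exfalso
      have h3 : vec t = 0 := by
        have := h1
        rwa [left_eq_add] at this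
      unfold vec at h3
      rcases head_cases t with ⟨a, b, c⟩ | ⟨a, b, c⟩ | ⟨a, b, c⟩ | ⟨a, b, c⟩ <;>
        rw [b, c] at h3 <;> simp at h3
  rw [r3, r4, sqL_out, show hd4 e - 1 - 1 = hd4 e - 2 by ring,
    vec_eq (show (hd4 e - 1 + 1) % 4 = (t + 1) % 4 by omega)]

theorem dir_in {x : Ed} {t : ℤ} (h : P4 x = M4 (rs x) t) :
    tlv x = hdv x + vec (t + 1) := by
  obtain ⟨r1, r2, r3, r4, r5, r6⟩ := rs_eq x
  have h0 : P4 x = M4 (rs x) (hd4 x + 1) := by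
    rw [r2, r1, show hd4 x + 1 = hd4 x - 1 + 2 by ring, M4_rev]
  have h1 : (hd4 x + 1) % 4 = t % 4 := by
    rcases M4_two (h0.symm.trans h) with ⟨-, h1⟩ | ⟨h1, h2⟩
    · exact h1
    · exfalso
      have h3 : vec t = 0 := by
        have := h1
        rwa [left_eq_add] at this
      unfold vec at h3
      rcases head_cases t with ⟨a, b, c⟩ | ⟨a, b, c⟩ | ⟨a, b, c⟩ | ⟨a, b, c⟩ <;>
        rw [b, c] at h3 <;> simp at h3
  rw [r6, sqL_out, show hd4 x + 1 - 1 = hd4 x by ring, ← r5,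
    vec_eq (show (hd4 x + 1 + 1) % 4 = (t + 1) % 4 by omega)]

theorem oz_in (z : ℤ × ℤ) (r : Fin 4) (σ : ℤ) : oz z r σ + dir (r + 1) = face (vz z r σ) r := by
  obtain ⟨h0, h1, h2, h3⟩ := oz_eq z σ
  obtain ⟨k0, k1, k2, k3⟩ := vz_eq z σ
  rcases fin4_cases r with rfl | rfl | rfl | rfl
  · rw [h0, k0, show (0 : Fin 4) + 1 = 1 from rfl, dir1, face0]; ext <;> simp
  · rw [h1, k1, show (1 : Fin 4) + 1 = 2 from rfl, dir2, face1]; ext <;> simp; ring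
  · rw [h2, k2, show (2 : Fin 4) + 1 = 3 from rfl, dir3, face2]; ext <;> simp; ring
  · rw [h3, k3, show (3 : Fin 4) + 1 = 0 from rfl, dir0, face3]; ext <;> simp

theorem oz_next (z : ℤ × ℤ) (r : Fin 4) (σ : ℤ) : oz z r σ + dir r = oz z r (σ + 1) := by
  obtain ⟨h0, h1, h2, h3⟩ := oz_eq z σ
  obtain ⟨k0, k1, k2, k3⟩ := oz_eq z (σ + 1)
  rcases fin4_cases r with rfl | rfl | rfl | rfl
  · rw [h0, k0, dir0]; ext <;> simp; ring
  · rw [h1, k1, dir1]; ext <;> simp; ring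
  · rw [h2, k2, dir2]; ext <;> simp; ring
  · rw [h3, k3, dir3]; ext <;> simp; ring

theorem vec_mod {u : ℤ} {r : Fin 4} (h : u % 4 = ((r.val : ℕ) : ℤ)) :
    vec u = dir r ∧ vec (u + 1) = dir (r + 1) ∧ vec (u + 2) = - dir r ∧
      vec (u + 3) = dir (r - 1) := by
  refine ⟨?_, ?_, ?_, ?_⟩
  · rw [← vec_fin]; exact vec_eq (by omega)
  · rw [← vec_fin]
    apply vec_eq
    rcases fin4_cases r with rfl | rfl | rfl | rfl <;> simp at h ⊢ <;> omega
  · have : vec (u + 2) = - vec u := (vec_nt u).1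
    have h5 : vec u = vec ((r.val : ℕ) : ℤ) := vec_eq (by omega)
    rw [this, ← vec_fin, h5]
  · rw [← vec_fin]
    apply vec_eq
    rcases fin4_cases r with rfl | rfl | rfl | rfl <;> simp at h ⊢ <;> omega

/-! ### the frame -/

variable {l : ℕ} {p : ZMod l → ℤ × ℤ} {n : ℕ} {S₀ : Finset (ℤ × ℤ)} {Q : Marks} {bc : Bc}
  {θ β : ℝ} {ω : Cfg} {e : Ed}

/-- The row before the mark. -/
def yB (Q : Marks) (x : Fin l × Fin (Q.m + 1)) : Fin l × Fin (Q.m + 1) :=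
  (⟨iB l x, iB_lt x⟩, ⟨jB x, by have := jB_le x; omega⟩)

/-- The row of a foot. -/
def yR (Q : Marks) (x : Fin l × Fin (Q.m + 1)) (s : Bool) : Fin l × Fin (Q.m + 1) :=
  if s then x else yB Q x

section frame

variable (hp : IsPolygon p) (hD : Encloses p S₀) (hQ : Q.Ok) {g δ : ℝ} (hg : Gap Q l g)
  (hδ : 0 < δ) (hδg : 4 * δ ≤ g) (hn : 16 ≤ δ * n) {R : ℕ} (hR1 : ⌊δ * n⌋₊ + 3 ≤ R)
  (hR2 : (2 * R : ℝ) + 8 < g * n)

include hp hD hQ hg hδ hδg hn hR1 hR2 in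
theorem rA_row (x : Fin l × Fin (Q.m + 1)) {v : ℤ × ℤ}
    (hv : v ∈ rA (hsite p Q n x) (uB p n Q x) (R - gB p n Q ⌊δ * n⌋₊ x) R) :
    ∃ σ : ℕ, v = Enl.op p n (yB Q x).1 σ ∧ sW p n Q ⌊δ * n⌋₊ (yB Q x).1 (yB Q x).2 ≤ σ ∧
      σ < eW p n Q ⌊δ * n⌋₊ (yB Q x).1 (yB Q x).2 := by
  have hn' : 0 < n := by
    rcases Nat.eq_zero_or_pos n with h | h
    · rw [h] at hn; norm_num at hn
    · exact h
  obtain ⟨⟨p1, p2, p3⟩, -⟩ := row_pos (p := p) hQ hg hδ hδg hn x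
  obtain ⟨q1, q2⟩ := rows_long (p := p) hQ hg hδ hδg hn hR2 x
  unfold rA at hv
  rw [Set.mem_ofPred_eq] at hv
  obtain ⟨h1, h2, h3⟩ := hv
  refine ⟨((Lq (hsite p Q n x) (uB p n Q x) v).1 + pB n Q x).toNat, ?_, ?_, ?_⟩
  · apply Lq_inj (z := hsite p Q n x) (u := uB p n Q x)
    show _ = Lq _ _ (Enl.op p n (iB l x) _)
    rw [Lq_before hp hD hQ hn']
    ext
    · show _ = (((Lq _ _ v).1 + pB n Q x).toNat : ℤ) - pB n Q x
      omega
    · exact h1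
  · show sW p n Q ⌊δ * n⌋₊ (iB l x) (jB x) ≤ _
    omega
  · show _ < eW p n Q ⌊δ * n⌋₊ (iB l x) (jB x)
    omega

include hp hD hQ hg hδ hδg hn hR1 hR2 in
theorem rB_row (x : Fin l × Fin (Q.m + 1)) {v : ℤ × ℤ}
    (hv : v ∈ rB (hsite p Q n x) (uB p n Q x) (uA p n Q x - uB p n Q x)
      (R - gA p n Q ⌊δ * n⌋₊ x) R) :
    ∃ σ : ℕ, v = Enl.op p n x.1 σ ∧ sW p n Q ⌊δ * n⌋₊ x.1 x.2 ≤ σ ∧
      σ < eW p n Q ⌊δ * n⌋₊ x.1 x.2 := by
  have hn' : 0 < n := by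
    rcases Nat.eq_zero_or_pos n with h | h
    · rw [h] at hn; norm_num at hn
    · exact h
  obtain ⟨-, ⟨p4, p5, p6⟩⟩ := row_pos (p := p) hQ hg hδ hδg hn x
  obtain ⟨q1, q2⟩ := rows_long (p := p) hQ hg hδ hδg hn hR2 x
  unfold rB at hv
  rw [Set.mem_ofPred_eq, show uA p n Q x - uB p n Q x + uB p n Q x = uA p n Q x by ring] at hv
  obtain ⟨h1, h2, h3⟩ := hv
  refine ⟨((Lq (hsite p Q n x) (uA p n Q x) v).1 + pA n Q x).toNat, ?_, by omega, by omega⟩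
  apply Lq_inj (z := hsite p Q n x) (u := uA p n Q x)
  rw [Lq_after hp hD hQ hn']
  ext
  · show _ = (((Lq _ _ v).1 + pA n Q x).toNat : ℤ) - pA n Q x
    omega
  · exact h1

theorem op_row {x : Fin l × Fin (Q.m + 1)} {σ : ℕ} (h1 : sW p n Q ⌊δ * n⌋₊ x.1 x.2 ≤ σ)
    (h2 : σ < eW p n Q ⌊δ * n⌋₊ x.1 x.2) :
    Enl.op p n x.1 σ ∈ (frows θ β p Q n ⌊δ * n⌋₊ bc x).I := by
  show Enl.op p n x.1 σ ∈ (frow θ β p Q n ⌊δ * n⌋₊ bc x.1 x.2).I
  rw [H825.Q.frow_I]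
  exact mem_rowP.2 ⟨σ, h1, h2, rfl⟩

/-- The square outside of a foot, by the face. -/
structure Fsq (θ β : ℝ) (p : ZMod l → ℤ × ℤ) (Q : Marks) (n : ℕ) (S₀ : Finset (ℤ × ℤ)) (d : ℕ)
    (bc : Bc) (y : Fin l × Fin (Q.m + 1)) (f : ℤ) (v w : ℤ × ℤ) : Prop where
  row : v ∈ (frows θ β p Q n d bc y).I
  f0 : f = 0 → w ∈ enl S₀ n
  f1 : f = 1 → w ∈ hB p Q n (d + 4)
  f2 : f = 2 → w ∉ enl S₀ n

include hp hD hQ hg hδ hδg hn hR1 hR2 in
/-- **The squares at a foot.** -/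
theorem foot_sq (x : Fin l × Fin (Q.m + 1)) {P : ℕ → ℤ × ℤ} {U : ℕ → ℤ} {g : Ed} {i : ℕ} {f : ℤ}
    {s : Bool} {v w : ℤ × ℤ}
    (F : Ftt (R - gB p n Q ⌊δ * n⌋₊ x) (R - gA p n Q ⌊δ * n⌋₊ x) R
      (uA p n Q x - uB p n Q x) P U (hsite p Q n x) (uB p n Q x) g i f s)
    (hA : s = false → v ∈ rA (hsite p Q n x) (uB p n Q x) (R - gB p n Q ⌊δ * n⌋₊ x) R)
    (hB' : s = true → v ∈ rB (hsite p Q n x) (uB p n Q x) (uA p n Q x - uB p n Q x)
      (R - gA p n Q ⌊δ * n⌋₊ x) R)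
    (hw : w = v + vec (U i + uB p n Q x + 1))
    (hwK : w ∉ uI (frows θ β p Q n ⌊δ * n⌋₊ bc)) :
    Fsq θ β p Q n S₀ ⌊δ * n⌋₊ bc (yR Q x s) f v w := by
  have hn' : 0 < n := by
    rcases Nat.eq_zero_or_pos n with h | h
    · rw [h] at hn; norm_num at hn
    · exact h
  have hd : 16 ≤ ⌊δ * n⌋₊ := Nat.le_floor (by push_cast; linarith)
  have hrow := rows_marks (p := p) hQ hg hδ hδg hn
  cases s with
  | false =>
    obtain ⟨σ, rfl, h1, h2⟩ := rA_row hp hD hQ hg hδ hδg hn hR1 hR2 x (hA rfl)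
    have hu : uB p n Q x % 4 = (((pdir p (yB Q x).1).val : ℕ) : ℤ) := uB_mod hp hD hQ hn' x
    obtain ⟨u0, u1, u2, u3⟩ := vec_mod hu
    obtain ⟨-, hU, hf⟩ := F.a rfl
    have hr : yR Q x false = yB Q x := rfl
    rw [hr]
    have a1 := hrow.lo (yB Q x)
    have a2 := hrow.hi (yB Q x)
    refine ⟨op_row h1 h2, ?_, ?_, ?_⟩
    · rintro rfl
      have e1 : w = face (vp p n (yB Q x).1 σ) (pdir p (yB Q x).1) := by
        rw [hw, hU, vec_eq (show (-0 + uB p n Q x + 1) % 4 = (uB p n Q x + 1) % 4 by ring_nf), u1]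
        exact oz_in _ _ _
      rw [e1]
      exact ip_in hp hD (yB Q x).1.2 (by omega)
    · rintro rfl
      have e1 : w = Enl.op p n (yB Q x).1 ((σ : ℤ) + 1) := by
        rw [hw, hU, vec_eq (show (-1 + uB p n Q x + 1) % 4 = (uB p n Q x) % 4 by ring_nf), u0]
        exact oz_next _ _ _
      by_cases h3 : σ + 1 < eW p n Q ⌊δ * n⌋₊ (yB Q x).1 (yB Q x).2
      · exfalso
        apply hwK
        rw [e1]
        have := op_row (θ := θ) (β := β) (bc := bc) (x := yB Q x) (σ := σ + 1) (by omega) h3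
        push_cast at this
        exact mem_uI.2 ⟨yB Q x, this⟩
      · have h4 := (op_ends hp hQ hg hδ hδg hn (yB Q x)).2
        rw [e1, show (σ : ℤ) + 1 = (eW p n Q ⌊δ * n⌋₊ (yB Q x).1 (yB Q x).2 : ℤ) by omega]
        exact h4
    · rintro rfl
      have e1 : w = Enl.op p n (yB Q x).1 σ + dir (pdir p (yB Q x).1 - 1) := by
        rw [hw, hU, vec_eq (show (-2 + uB p n Q x + 1) % 4 = (uB p n Q x + 3) % 4 by omega), u3]
      rw [e1]
      exact op2_out hp hD (yB Q x).1.2 (by omega) (by omega)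
  | true =>
    obtain ⟨σ, rfl, h1, h2⟩ := rB_row hp hD hQ hg hδ hδg hn hR1 hR2 x (hB' rfl)
    have hu : uA p n Q x % 4 = (((pdir p x.1).val : ℕ) : ℤ) :=
      uA_mod hp hD hQ hn' x (pA_lt hQ hn' x)
    obtain ⟨u0, u1, u2, u3⟩ := vec_mod hu
    obtain ⟨-, -, hU, hf⟩ := F.b rfl
    have hr : yR Q x true = x := rfl
    rw [hr]
    have a1 := hrow.lo x
    have a2 := hrow.hi x
    refine ⟨op_row h1 h2, ?_, ?_, ?_⟩
    · rintro rfl
      have e1 : w = face (vp p n x.1 σ) (pdir p x.1) := by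
        rw [hw, hU, show uA p n Q x - uB p n Q x + 0 + uB p n Q x + 1 = uA p n Q x + 1 by ring, u1]
        exact oz_in _ _ _
      rw [e1]
      exact ip_in hp hD x.1.2 (by omega)
    · rintro rfl
      have e0 : w + dir (pdir p x.1) = Enl.op p n x.1 σ := by
        rw [hw, hU, show uA p n Q x - uB p n Q x + 1 + uB p n Q x + 1 = uA p n Q x + 2 by ring, u2]
        abel
      have e1 : w = Enl.op p n x.1 ((σ : ℤ) - 1) := by
        have h3 : Enl.op p n x.1 ((σ : ℤ) - 1) + dir (pdir p x.1) = Enl.op p n x.1 σ := by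
          have := oz_next ((n : ℤ) • p ((x.1 : ℕ) : ZMod l)) (pdir p x.1) ((σ : ℤ) - 1)
          rw [sub_add_cancel] at this
          exact this
        exact add_right_cancel (e0.trans h3.symm)
      by_cases h3 : sW p n Q ⌊δ * n⌋₊ x.1 x.2 < σ
      · exfalso
        apply hwK
        rw [e1]
        have := op_row (θ := θ) (β := β) (bc := bc) (p := p) (n := n) (δ := δ) (x := x)
          (σ := σ - 1) (by omega) (by omega)
        rw [show ((σ - 1 : ℕ) : ℤ) = (σ : ℤ) - 1 by omega] at this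
        exact mem_uI.2 ⟨x, this⟩
      · have h4 := (op_ends hp hQ hg hδ hδg hn x).1
        rw [e1, show (σ : ℤ) - 1 = (sW p n Q ⌊δ * n⌋₊ x.1 x.2 : ℤ) - 1 by omega]
        exact h4
    · rintro rfl
      have e1 : w = Enl.op p n x.1 σ + dir (pdir p x.1 - 1) := by
        rw [hw, hU, show uA p n Q x - uB p n Q x + 2 + uB p n Q x + 1 = uA p n Q x + 3 by ring, u3]
      rw [e1]
      exact op2_out hp hD x.1.2 (by omega) (by omega)

/-- The data of a strand in the window of the mark `x`. -/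
structure FT (θ β : ℝ) (p : ZMod l → ℤ × ℤ) (Q : Marks) (n : ℕ) (S₀ : Finset (ℤ × ℤ)) (d : ℕ)
    (bc : Bc) (x : Fin l × Fin (Q.m + 1)) (ω : Cfg) (e : Ed) (t : ℤ) (i j : ℕ) (f f' : ℤ)
    (s s' : Bool) : Prop where
  ang : H199.cang plane θ (rowC θ (frows θ β p Q n d bc) 0).ph ω
    (strand (nx ω) (bS (uI (frows θ β p Q n d bc))) e) =
      θ / 4 * t + hτ l n Q bc x * ((3 * θ - Real.pi) / 2)
  tt : t = sg' s' f' - sg' s f + (if i < j then -2 else 2)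
  tr : s = s' → t = ∑ k ∈ range (ret (nx ω) (bS (uI (frows θ β p Q n d bc))) e),
    trn ω ((nx ω)^[k] e)
  ij : s = false → s' = true → i < j
  ji : s = true → s' = false → ¬ i < j
  fr : 0 ≤ f ∧ f ≤ 2
  fr' : 0 ≤ f' ∧ f' ≤ 2
  sq : Fsq θ β p Q n S₀ d bc (yR Q x s) f (tlv e) (hdv e)
  sq' : Fsq θ β p Q n S₀ d bc (yR Q x s') f'
    (hdv ((nx ω)^[ret (nx ω) (bS (uI (frows θ β p Q n d bc))) e] e))
    (tlv ((nx ω)^[ret (nx ω) (bS (uI (frows θ β p Q n d bc))) e] e))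

include hp hD hQ hg hδ hδg hn hR1 hR2 in
/-- **The table of a mark of the frame.** -/
theorem ftab (hb : bc.Ok l Q) (hbg : BGap l Q g bc) (x : Fin l × Fin (Q.m + 1))
    (he : e ∈ bS (uI (frows θ β p Q n ⌊δ * n⌋₊ bc)))
    (he1 : hdv e ∉ uI (frows θ β p Q n ⌊δ * n⌋₊ bc))
    (hr : Returns (nx ω) (bS (uI (frows θ β p Q n ⌊δ * n⌋₊ bc))) e)
    (hin : ∀ k < ret (nx ω) (bS (uI (frows θ β p Q n ⌊δ * n⌋₊ bc))) e,
      hdv ((nx ω)^[k] e) ∈ Bq (hsite p Q n x) R) :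
    ∃ (t : ℤ) (i j : ℕ) (f f' : ℤ) (s s' : Bool),
      FT θ β p Q n S₀ ⌊δ * n⌋₊ bc x ω e t i j f f' s s' := by
  obtain ⟨hW, hWn⟩ := frame_holeW (θ := θ) (β := β) (bc := bc) hp hD hQ hg hδ hδg hn hb hbg hR1
    hR2 x
  obtain ⟨P, U, hbd, hI⟩ := exists_win hW.kap hW.posA hW.posB hW.ltA hW.ltB
  have hin' : ∀ k < ret (nx ω) (bS (uI (frows θ β p Q n ⌊δ * n⌋₊ bc))) e,
      hdv ((nx ω)^[k] e) ∈ Wn (hsite p Q n x) (uB p n Q x) (uA p n Q x - uB p n Q x)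
          (R - gB p n Q ⌊δ * n⌋₊ x) (R - gA p n Q ⌊δ * n⌋₊ x) R :=
    fun k hk => hWn _ (hin k hk) (out_stays he1 hk)
  obtain ⟨i, j, f, f', s, s', t, F, F', Fs, Fs', l1, l2, l3, l4, hij, hc, ht, htr⟩ :=
    tab hW hbd hI he hr hin'
  have hlast := QX.exc_last he1 hr
  have e1 := dir_out (e := e) (t := U i + uB p n Q x) (by rw [l1]; exact F.at_)
  have e2 := dir_in (x := (nx ω)^[ret (nx ω) (bS (uI (frows θ β p Q n ⌊δ * n⌋₊ bc))) e] e)
    (t := U j + uB p n Q x) (by rw [l4]; exact F'.at_)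
  have hm := hr.spec.1
  have h1 := (hW.mem e he).1 (hin' 0 hm)
  have h2 := (hW.mem _ hr.spec.2).2 (by
    obtain ⟨m', hm'⟩ : ∃ m', ret (nx ω) (bS (uI (frows θ β p Q n ⌊δ * n⌋₊ bc))) e = m' + 1 :=
      ⟨ret (nx ω) (bS (uI (frows θ β p Q n ⌊δ * n⌋₊ bc))) e - 1, by omega⟩
    rw [hm', Function.iterate_succ_apply', tlv_nx]
    exact hin' m' (by omega))
  refine ⟨t, i, j, f, f', s, s', hc, ht, htr, ?_, ?_, F.frg, F'.frg, ?_, ?_⟩
  · intro g1 g2
    have k1 := (F.a g1).1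
    have k2 := (F'.b g2).1
    have k3 := hW.posA
    have k4 := hW.ltB
    rcases tB_bd (κ := uA p n Q x - uB p n Q x) (A := R - gB p n Q ⌊δ * n⌋₊ x)
      (B := R - gA p n Q ⌊δ * n⌋₊ x) (R := R) with h5 | h5 <;> omega
  · intro g1 g2
    have k1 := (F.b g1).1
    have k2 := (F'.a g2).1
    have k3 := hW.posA
    have k4 := hW.ltB
    rcases tB_bd (κ := uA p n Q x - uB p n Q x) (A := R - gB p n Q ⌊δ * n⌋₊ x)
      (B := R - gA p n Q ⌊δ * n⌋₊ x) (R := R) with h5 | h5 <;> omega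
  · refine foot_sq hp hD hQ hg hδ hδg hn hR1 hR2 x F Fs.1 (fun hs => ?_) e1 he1
    rcases h1 with h1 | h1
    · rw [hs] at Fs
      exact absurd (Fs.2 h1) (by decide)
    · exact h1
  · refine foot_sq hp hD hQ hg hδ hδg hn hR1 hR2 x F' Fs'.1 (fun hs => ?_) e2 hlast.2
    rcases h2 with h2 | h2
    · rw [hs] at Fs'
      exact absurd (Fs'.2 h2) (by decide)
    · exact h2

include hp hD hQ hg hδ hδg hn in
/-- **A strand which does not visit the boxes at the marks is natural.** -/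
theorem nf {x : Fin l × Fin (Q.m + 1)} {t : ℤ} {i j : ℕ} {f f' : ℤ} {s s' : Bool}
    (h : FT θ β p Q n S₀ ⌊δ * n⌋₊ bc x ω e t i j f f' s s')
    (he1 : hdv e ∉ uI (frows θ β p Q n ⌊δ * n⌋₊ bc))
    (hr : Returns (nx ω) (bS (uI (frows θ β p Q n ⌊δ * n⌋₊ bc))) e)
    (hH : ∀ k < ret (nx ω) (bS (uI (frows θ β p Q n ⌊δ * n⌋₊ bc))) e,
      hdv ((nx ω)^[k] e) ∉ hB p Q n (⌊δ * n⌋₊ + 4)) : t = 2 ∨ t = -2 := by
  have hG := frmG (θ := θ) (β := β) (bc := bc) hp hD hQ hg hδ hδg hn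
  have hm := hr.spec.1
  set m := ret (nx ω) (bS (uI (frows θ β p Q n ⌊δ * n⌋₊ bc))) e with hmdef
  have hnK : ∀ k < m, hdv ((nx ω)^[k] e) ∉ uI (frows θ β p Q n ⌊δ * n⌋₊ bc) :=
    fun k hk => out_stays he1 hk
  have hv : ∀ k < m, hdv ((nx ω)^[k] e) ∈ uI (frows θ β p Q n ⌊δ * n⌋₊ bc) →
      ω (hdv ((nx ω)^[k] e)) = false := fun k hk h => absurd h (hnK k hk)
  have hdom : ∀ k < m, ∀ j < m,
      hdv ((nx ω)^[k] e) ∈ enl S₀ n → hdv ((nx ω)^[j] e) ∈ enl S₀ n := by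
    intro k hk j hj h
    by_cases h1 : cs false e ∈ BR.sites (enl S₀ n)
    · exact (hG.near h1 hH hv hj).resolve_right (hnK j hj)
    · exact absurd h (hG.far h1 hH hv hk)
  obtain ⟨m', hm'⟩ : ∃ m', m = m' + 1 := ⟨m - 1, by omega⟩
  have htl : tlv ((nx ω)^[m] e) = hdv ((nx ω)^[m'] e) := by
    rw [hm', Function.iterate_succ_apply', tlv_nx]
  have q0 := h.sq.f0
  have q1 := h.sq.f1
  have q2 := h.sq.f2
  have q0' := h.sq'.f0
  have q1' := h.sq'.f1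
  have q2' := h.sq'.f2
  rw [← hmdef, htl] at q0' q1' q2'
  have g0 := hH 0 (by omega)
  have g1 := hH m' (by omega)
  have d1 := hdom 0 (by omega) m' (by omega)
  have d2 := hdom m' (by omega) 0 (by omega)
  rw [Function.iterate_zero, id] at g0 d1 d2
  have fr := h.fr
  have fr' := h.fr'
  have hf1 : f ≠ 1 := fun h1 => g0 (q1 h1)
  have hf1' : f' ≠ 1 := fun h1 => g1 (q1' h1)
  have hff : f = f' := by
    rcases (by omega : f = 0 ∨ f = 2) with h1 | h1 <;>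
      rcases (by omega : f' = 0 ∨ f' = 2) with h2 | h2
    · rw [h1, h2]
    · exact absurd (d1 (q0 h1)) (q2' h2)
    · exact absurd (d2 (q0' h2)) (q2 h1)
    · rw [h1, h2]
  have ht := h.tt
  have ij := h.ij
  have ji := h.ji
  subst hff
  cases s <;> cases s' <;> simp only [sg', reduceCtorEq, forall_const, IsEmpty.forall_iff,
    Bool.false_eq_true, if_false, if_true] at ht ij ji
  · split_ifs at ht <;> omega
  · rw [if_pos ij] at ht; omega
  · rw [if_neg ji] at ht; omega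
  · split_ifs at ht <;> omega

end frame

end Vale.Agent.P167.H662.D2
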