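import Vale.Agent.P167.H662.D2.B
import Vale.Agent.P167.H871.Q.ValE

/-!
# P167, general `q`, L2S (d): the strands over the tips and the small strands

`tp θ r b`: the end of the row `r` behind the face `b`. `VT`: the strands over the tips in the boxes
of radius `ρ`. `VT_t`: their turnings are `± 4`. `small_cases`: the small strands.
-/

namespace Vale.Agent.P167.H662.D2

open Finset
open Vale.Agent.P167.Top
open Vale.Agent.P167.A (plane)
open Vale.Agent.P167.BR (sites be)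
open Vale.Agent.P167.FK (Bq Good)
open Vale.Agent.P167.E6 (IsPolygon Encloses dir)
open Vale.Agent.P167.XDL (bS mem_bS)
open Vale.Agent.P167.H199 (strand ret Returns ret_min ret_le Gap)
open Vale.Agent.P167.H825 (enl pdir Marks)
open Vale.Agent.P167.H825.Q (Row Bc frow)
open Vale.Agent.P167.H680.T (rowC uI frows mem_uI)
open Vale.Agent.P167.H662 (hsite)
open Vale.Agent.P167.H398.Q (hB)
open Vale.Agent.P167.H871 Vale.Agent.P167.H871.Q
open Vale.Agent.P167.QX (lst exc_last out_stays)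
open Vale.Agent.P167.H945.Q (face faces lrs SP tipL tipR relw)
open Vale.Agent.P167.Enl

/-! ### strands of a union of rows -/

section str

variable {I K B : Finset (ℤ × ℤ)} {ω : Cfg} {e : Ed}

/-- A strand of `K` with both feet in `I ⊆ K` is a strand of `I`. -/
theorem strK (hI : I ⊆ K) (he1 : hdv e ∉ K) (he2 : tlv e ∈ I) (hr : Returns (nx ω) (bS K) e)
    (hl : hdv (lst K ω e) ∈ I) : Str I ω e ∧ ret (nx ω) (bS I) e = ret (nx ω) (bS K) e := by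
  obtain ⟨h1, h2⟩ := hr.spec
  have hlast := exc_last he1 hr
  have hmem : (nx ω)^[ret (nx ω) (bS K) e] e ∈ bS I :=
    mem_bS.2 (Or.inl ⟨hl, fun h => hlast.2 (hI h)⟩)
  have hR : Returns (nx ω) (bS I) e := ⟨_, h1, hmem⟩
  refine ⟨⟨fun h => he1 (hI h), he2, hR⟩, le_antisymm (ret_le h1 hmem) ?_⟩
  by_contra hlt
  push Not at hlt
  obtain ⟨g1, g2⟩ := hR.spec
  rw [mem_bS] at g2
  rcases g2 with ⟨g2, -⟩ | ⟨-, g2⟩
  · exact out_stays he1 hlt (hI g2)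
  · obtain ⟨j, hj⟩ : ∃ j, ret (nx ω) (bS I) e = j + 1 := ⟨ret (nx ω) (bS I) e - 1, by omega⟩
    rw [hj, Function.iterate_succ_apply', tlv_nx] at g2
    exact out_stays he1 (show j < ret (nx ω) (bS K) e by omega) (hI g2)

theorem lstK (h : ret (nx ω) (bS I) e = ret (nx ω) (bS K) e) : lst I ω e = lst K ω e := by
  unfold lst
  rw [h]

theorem staysK (h : ret (nx ω) (bS I) e = ret (nx ω) (bS K) e) {B : Set (ℤ × ℤ)}
    (hs : Stays K B ω e) : Stays I B ω e := by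
  unfold Stays at hs ⊢
  rw [h]
  exact hs

end str

/-! ### strands over an end -/

section row

variable {r : Row} {b b' : Bool} {ω : Cfg} {e : Ed} {B : Finset (ℤ × ℤ)}

theorem ee_face (hL : 1 ≤ r.L) : ee r b ∉ faces r b' 0 r.L := by
  intro h
  have hq := rqr_polygon (r := r) (b := b) hL
  by_cases hbb : b' = b
  · subst hbb
    have h4 := idx_face hL (by omega) h le_rfl
    omega
  · obtain rfl : b' = !b := by cases b <;> cases b' <;> simp_all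
    have h4 := idx_face' hL (by omega) h
    omega

theorem face_of {k : ℕ} (hk : k < r.L) : face r b k ∈ faces r b 0 r.L := mem_faces (Nat.zero_le _) hk

/-- Strands over an end have turning `4` (counterclockwise). -/
theorem over_tr (hL : 1 ≤ r.L) (hR : Rays r.I (B : Set (ℤ × ℤ))) (h0 : w0 r b ∉ B)
    (hs : Str r.I ω e) (hst : Stays r.I (B : Set (ℤ × ℤ)) ω e) (h1 : e ∈ faces r b 0 r.L)
    (h2 : lst r.I ω e ∈ faces r (!b) 0 r.L) : tr r.I ω e = 4 := by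
  have hb : b ≠ !b := by cases b <;> decide
  rcases cls hL hR h0 hs hst with ⟨b', k, l, hk, hl, g1, g2, -, -, -⟩ |
    ⟨k, l, hk, hl, g1, g2, ht, -, -⟩ | ⟨k, l, hk, hl, g1, g2, -, -, -⟩ | ⟨h, -⟩
  · exfalso
    by_cases hbb : b' = b
    · subst hbb
      exact faces_disj (Or.inl hb) (g2 ▸ face_of hl) h2
    · exact faces_disj (Or.inl hbb) (g1 ▸ face_of hk) h1
  · exact ht
  · exact absurd h1 (faces_disj (Or.inl hb.symm) (g1 ▸ face_of hk))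
  · rcases h with h | h
    · rw [h] at h1; exact absurd h1 (ee_face hL)
    · rw [h] at h2; exact absurd h2 (ee_face hL)

theorem over_tr' (hL : 1 ≤ r.L) (hR : Rays r.I (B : Set (ℤ × ℤ))) (h0 : w0 r b ∉ B)
    (hs : Str r.I ω e) (hst : Stays r.I (B : Set (ℤ × ℤ)) ω e) (h1 : e ∈ faces r (!b) 0 r.L)
    (h2 : lst r.I ω e ∈ faces r b 0 r.L) : tr r.I ω e = -4 := by
  have hb : b ≠ !b := by cases b <;> decide
  rcases cls hL hR h0 hs hst with ⟨b', k, l, hk, hl, g1, g2, -, -, -⟩ |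
    ⟨k, l, hk, hl, g1, g2, -, -, -⟩ | ⟨k, l, hk, hl, g1, g2, ht, -, -⟩ | ⟨h, -⟩
  · exfalso
    by_cases hbb : b' = b
    · subst hbb
      exact faces_disj (Or.inl hb) (g1 ▸ face_of hk) h1
    · exact faces_disj (Or.inl hbb) (g2 ▸ face_of hl) h2
  · exact absurd h1 (faces_disj (Or.inl hb) (g1 ▸ face_of hk))
  · exact ht
  · rcases h with h | h
    · rw [h] at h1; exact absurd h1 (ee_face hL)
    · rw [h] at h2; exact absurd h2 (ee_face hL)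

/-- **The strands which stay in a box which is not long.** -/
theorem box_cases (hL : 1 ≤ r.L) (hR : Rays r.I (B : Set (ℤ × ℤ)))
    (hB : ¬ (w0 r true ∈ B ∧ w0 r false ∈ B))
    (hs : Str r.I ω e) (hst : Stays r.I (B : Set (ℤ × ℤ)) ω e) :
    (tr r.I ω e = 2 ∨ tr r.I ω e = -2) ∨
    (∃ b, w1 r b ∈ B ∧ ((e ∈ faces r b 0 r.L ∧ lst r.I ω e ∈ faces r (!b) 0 r.L) ∨
      (e ∈ faces r (!b) 0 r.L ∧ lst r.I ω e ∈ faces r b 0 r.L))) ∨
    ∃ b, e = ee r b ∨ lst r.I ω e = ee r b := by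
  obtain ⟨b, h0⟩ : ∃ b, w0 r b ∉ B := by
    by_contra h
    push Not at h
    exact hB ⟨h true, h false⟩
  rcases cls hL hR h0 hs hst with ⟨b', k, l, hk, hl, g1, g2, ht, -, -⟩ |
    ⟨k, l, hk, hl, g1, g2, ht, hw, -⟩ | ⟨k, l, hk, hl, g1, g2, ht, hw, -⟩ | ⟨h, -⟩
  · left
    rw [ht]
    split_ifs
    · right; rfl
    · left; rfl
  · right; left
    exact ⟨b, hw, Or.inl ⟨g1 ▸ face_of hk, g2 ▸ face_of hl⟩⟩
  · right; left
    exact ⟨b, hw, Or.inr ⟨g1 ▸ face_of hk, g2 ▸ face_of hl⟩⟩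
  · right; right
    exact ⟨b, h⟩

/-- The end of the row behind the face `b`. -/
noncomputable def tp (θ : ℝ) (r : Row) (b : Bool) : SP :=
  ⟨r.sq (te r b), (1, 1), faces r b 0 r.L, faces r (!b) 0 r.L,
    relw θ 4 0 (r.τ (r.sq (te r b))) (r.τ (r.sq (te r b))),
    relw θ (-4) 0 (r.τ (r.sq (te r b))) (r.τ (r.sq (te r b)))⟩

theorem tp_L (θ : ℝ) (r : Row) : tp θ r r.o = tipL θ r := by
  unfold tp tipL te
  rw [if_pos rfl]

theorem tp_R (θ : ℝ) (r : Row) : tp θ r (!r.o) = tipR θ r := by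
  unfold tp tipR te
  rw [if_neg (by cases r.o <;> decide), Bool.not_not]

theorem alm_tp {θ : ℝ} {R : ℤ} : Alm (r.sq (te r b)) R ((tp θ r b).bx R) := by
  refine ⟨_, _, _, _, rfl, ?_, ?_, ?_, ?_⟩ <;> simp only [tp] <;> push_cast <;> omega

theorem tp_prod {θ : ℝ} {I : Finset (ℤ × ℤ)} {R : ℤ} :
    (tipL θ r).T I R ω * (tipR θ r).T I R ω = ∏ b, (tp θ r b).T I R ω := by
  rw [Fintype.prod_bool, ← tp_L, ← tp_R]
  cases r.o
  · rw [mul_comm]; rfl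
  · rfl

/-- The strands over the end `b`; `c`: counterclockwise. -/
noncomputable def VT (θ : ℝ) (r : Row) (K : Finset (ℤ × ℤ)) (ρ : ℤ) (ω : Cfg) (b c : Bool) :
    Finset Ed :=
  if c then lrs K (faces r b 0 r.L) (faces r (!b) 0 r.L) ((tp θ r b).bx ρ) ω
  else lrs K (faces r (!b) 0 r.L) (faces r b 0 r.L) ((tp θ r b).bx ρ) ω

/-- The weights. -/
noncomputable def WT (θ : ℝ) (r : Row) (b c : Bool) : ℝ :=
  relw θ (if c then 4 else -4) 0 (r.τ (r.sq (te r b))) (r.τ (r.sq (te r b)))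

theorem tp_T {θ : ℝ} {K : Finset (ℤ × ℤ)} {ρ : ℤ} :
    (tp θ r b).T K ρ ω = ∏ c, WT θ r b c ^ (VT θ r K ρ ω b c).card := by
  rw [Fintype.prod_bool]
  rfl

theorem mem_VT {θ : ℝ} {K : Finset (ℤ × ℤ)} {ρ : ℤ} {c : Bool} :
    e ∈ VT θ r K ρ ω b c ↔ ((c = true ∧ e ∈ faces r b 0 r.L ∧ lst K ω e ∈ faces r (!b) 0 r.L) ∨
      (c = false ∧ e ∈ faces r (!b) 0 r.L ∧ lst K ω e ∈ faces r b 0 r.L)) ∧ Str K ω e ∧
      Stays K ((tp θ r b).bx ρ : Set (ℤ × ℤ)) ω e := by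
  unfold VT
  cases c
  · rw [if_neg (by decide), mem_lrs']
    simp only [Bool.false_eq_true, false_and, true_and, false_or]
    tauto
  · rw [if_pos rfl, mem_lrs']
    simp only [Bool.true_eq_false, false_and, true_and, or_false]
    tauto

theorem face_tl {K : Finset (ℤ × ℤ)} (hI : r.I ⊆ K) (h : e ∈ faces r b 0 r.L) (he : hdv e ∉ K) :
    tlv e ∈ r.I := by
  obtain ⟨k, hk, rfl⟩ := mem_image.1 h
  rw [mem_Ico] at hk
  have h1 : r.sq k ∈ r.I := mem_image.2 ⟨k, mem_range.2 hk.2, rfl⟩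
  rcases two_face r b k with ⟨h2, h3⟩ | ⟨h2, h3⟩
  · rw [h2] at he
    exact absurd (hI h1) he
  · rw [h3]; exact h1

theorem face_hd {K : Finset (ℤ × ℤ)} (hI : r.I ⊆ K) (h : e ∈ faces r b 0 r.L) (he : tlv e ∉ K) :
    hdv e ∈ r.I := by
  obtain ⟨k, hk, rfl⟩ := mem_image.1 h
  rw [mem_Ico] at hk
  have h1 : r.sq k ∈ r.I := mem_image.2 ⟨k, mem_range.2 hk.2, rfl⟩
  rcases two_face r b k with ⟨h2, h3⟩ | ⟨h2, h3⟩
  · rw [h2]; exact h1
  · rw [h3] at he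
    exact absurd (hI h1) he

theorem nm_w1 : nm (w1 r b - r.sq (te r b)) ≤ 1 := by
  rw [sq_sqm, w1, nm_sqm]
  unfold te
  by_cases ho : r.o = b
  · rw [if_pos ho, if_pos ho]; simp
  · rw [if_neg ho, if_neg ho]
    rcases Nat.eq_zero_or_pos r.L with h | h
    · rw [h]; simp
    · rw [show ((r.L - 1 : ℕ) : ℤ) = (r.L : ℤ) - 1 by omega]; simp

theorem w0_bx {θ : ℝ} {ρ : ℤ} (hL : 1 ≤ r.L) (hρ : ρ < r.L) : w0 r b ∉ (tp θ r b).bx ρ := by
  unfold w0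
  apply sqm_not alm_tp
  unfold te
  by_cases ho : r.o = b
  · rw [if_pos ho, if_pos ho]
    have := le_abs_self ((r.L : ℤ) - (0 : ℕ))
    push_cast at this ⊢
    omega
  · rw [if_neg ho, if_neg ho, show ((r.L - 1 : ℕ) : ℤ) = (r.L : ℤ) - 1 by omega]
    have := neg_le_abs ((-1 : ℤ) - ((r.L : ℤ) - 1))
    omega

end row

/-! ### the frame -/

section frame

variable {l : ℕ} {p : ZMod l → ℤ × ℤ} {n : ℕ} {S₀ : Finset (ℤ × ℤ)} {Q : Marks} {bc : Bc}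
  {θ β : ℝ} {ω : Cfg} {e : Ed}
  (hp : IsPolygon p) (hD : Encloses p S₀) (hQ : Q.Ok) {g δ : ℝ} (hg : Gap Q l g)
  (hδ : 0 < δ) (hδg : 4 * δ ≤ g) (hn : 16 ≤ δ * n)

include hp in
theorem yB_ne (x : Fin l × Fin (Q.m + 1)) : yB Q x ≠ x := by
  intro h
  have hl := hp.1
  have h1 : iB l x = x.1 := congrArg (fun y : Fin l × Fin (Q.m + 1) => (y.1 : ℕ)) h
  have h2 : jB x = x.2 := congrArg (fun y : Fin l × Fin (Q.m + 1) => (y.2 : ℕ)) h
  unfold iB at h1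
  unfold jB at h2
  by_cases h0 : (x.2 : ℕ) = 0
  · rw [if_pos h0] at h1
    split_ifs at h1 <;> omega
  · rw [if_neg h0] at h2
    omega

include hp in
theorem yR_inj {x : Fin l × Fin (Q.m + 1)} {s s' : Bool} (h : yR Q x s = yR Q x s') : s = s' := by
  have h1 := yB_ne (Q := Q) hp x
  cases s <;> cases s'
  · rfl
  · exact absurd h h1
  · exact absurd h.symm h1
  · rfl

theorem row_sub (y : Fin l × Fin (Q.m + 1)) {d : ℕ} :
    (frows θ β p Q n d bc y).I ⊆ uI (frows θ β p Q n d bc) := fun _ hv => mem_uI.2 ⟨y, hv⟩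

include hp hQ hg hδ hδg hn in
/-- Both feet in one row: the turning is the one of the row. -/
theorem same_row {x y : Fin l × Fin (Q.m + 1)} {t : ℤ} {i j : ℕ} {f f' : ℤ} {s s' : Bool}
    (h : FT θ β p Q n S₀ ⌊δ * n⌋₊ bc x ω e t i j f f' s s')
    (he1 : hdv e ∉ uI (frows θ β p Q n ⌊δ * n⌋₊ bc))
    (hr : Returns (nx ω) (bS (uI (frows θ β p Q n ⌊δ * n⌋₊ bc))) e)
    (h1 : tlv e ∈ (frows θ β p Q n ⌊δ * n⌋₊ bc y).I)
    (h2 : hdv (lst (uI (frows θ β p Q n ⌊δ * n⌋₊ bc)) ω e) ∈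
      (frows θ β p Q n ⌊δ * n⌋₊ bc y).I) :
    Str (frows θ β p Q n ⌊δ * n⌋₊ bc y).I ω e ∧
      ret (nx ω) (bS (frows θ β p Q n ⌊δ * n⌋₊ bc y).I) e =
        ret (nx ω) (bS (uI (frows θ β p Q n ⌊δ * n⌋₊ bc))) e ∧
      t = tr (frows θ β p Q n ⌊δ * n⌋₊ bc y).I ω e := by
  obtain ⟨g1, g2⟩ := strK (row_sub y) he1 h1 hr h2
  refine ⟨g1, g2, ?_⟩
  have e1 := frows_disj hp hQ hg hδ hδg hn h.sq.row h1
  have e2 := frows_disj hp hQ hg hδ hδg hn h.sq'.row h2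
  have e3 := yR_inj hp (e1.trans e2.symm)
  rw [h.tr e3]
  unfold tr
  rw [g2]

include hp hQ hg hδ hδg hn in
/-- **The strands over the tips have turning `± 4`.** -/
theorem VT_t {x y : Fin l × Fin (Q.m + 1)} {t : ℤ} {i j : ℕ} {f f' : ℤ} {s s' : Bool}
    (h : FT θ β p Q n S₀ ⌊δ * n⌋₊ bc x ω e t i j f f' s s') {b c : Bool} {ρ : ℤ} (hρ : 1 < ρ)
    (hρL : ρ < (frows θ β p Q n ⌊δ * n⌋₊ bc y).L)
    (he : e ∈ VT θ (frows θ β p Q n ⌊δ * n⌋₊ bc y) (uI (frows θ β p Q n ⌊δ * n⌋₊ bc)) ρ ω b c) :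
    t = if c then 4 else -4 := by
  obtain ⟨hc, hs, hst⟩ := mem_VT.1 he
  have hlast := exc_last hs.out hs.rt
  have hf : ∃ b', e ∈ faces (frows θ β p Q n ⌊δ * n⌋₊ bc y) b' 0
      (frows θ β p Q n ⌊δ * n⌋₊ bc y).L := by
    rcases hc with ⟨-, g, -⟩ | ⟨-, g, -⟩ <;> exact ⟨_, g⟩
  have hf' : ∃ b', lst (uI (frows θ β p Q n ⌊δ * n⌋₊ bc)) ω e ∈
      faces (frows θ β p Q n ⌊δ * n⌋₊ bc y) b' 0 (frows θ β p Q n ⌊δ * n⌋₊ bc y).L := by
    rcases hc with ⟨-, -, g⟩ | ⟨-, -, g⟩ <;> exact ⟨_, g⟩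
  obtain ⟨b1, hb1⟩ := hf
  obtain ⟨b2, hb2⟩ := hf'
  have t1 := face_tl (row_sub y) hb1 hs.out
  have t2 := face_hd (row_sub y) hb2 hlast.2
  obtain ⟨k1, k2, k3⟩ := same_row hp hQ hg hδ hδg hn h hs.out hs.rt t1 t2
  have k4 := staysK k2 hst
  have k5 := lstK k2
  have hL : 1 ≤ (frows θ β p Q n ⌊δ * n⌋₊ bc y).L := by omega
  have hR := (alm_tp (θ := θ) (r := frows θ β p Q n ⌊δ * n⌋₊ bc y) (b := b) (R := ρ)).rays hρ
    (sq_line _)
  have h0 := w0_bx (θ := θ) (b := b) hL hρL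
  rw [k3]
  rcases hc with ⟨rfl, g1, g2⟩ | ⟨rfl, g1, g2⟩
  · rw [if_pos rfl]
    exact over_tr hL hR h0 k1 k4 g1 (by rw [k5]; exact g2)
  · rw [if_neg (by decide)]
    exact over_tr' hL hR h0 k1 k4 g1 (by rw [k5]; exact g2)

include hp hQ hg hδ hδg hn in
/-- **Small strands** are natural, over a tip or at an end edge. -/
theorem small_cases {x : Fin l × Fin (Q.m + 1)} {t : ℤ} {i j : ℕ} {f f' : ℤ} {s s' : Bool}
    (h : FT θ β p Q n S₀ ⌊δ * n⌋₊ bc x ω e t i j f f' s s') {w ρ : ℤ} (hw : 2 ≤ w)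
    (hw2 : w + 5 < ⌊δ * n⌋₊) (hwρ : 2 * w + 2 ≤ ρ)
    (hwL : ∀ y, 2 * w ≤ (frows θ β p Q n ⌊δ * n⌋₊ bc y).L)
    (he1 : hdv e ∉ uI (frows θ β p Q n ⌊δ * n⌋₊ bc))
    (hr : Returns (nx ω) (bS (uI (frows θ β p Q n ⌊δ * n⌋₊ bc))) e)
    (hst : Stays (uI (frows θ β p Q n ⌊δ * n⌋₊ bc)) (Bq (hdv e) w : Set (ℤ × ℤ)) ω e) :
    (t = 2 ∨ t = -2) ∨
    (∃ y b c, e ∈ VT θ (frows θ β p Q n ⌊δ * n⌋₊ bc y) (uI (frows θ β p Q n ⌊δ * n⌋₊ bc)) ρ ω b c) ∨
    ∃ y b, e = ee (frows θ β p Q n ⌊δ * n⌋₊ bc y) b ∨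
      lst (uI (frows θ β p Q n ⌊δ * n⌋₊ bc)) ω e = ee (frows θ β p Q n ⌊δ * n⌋₊ bc y) b := by
  have hm := hr.spec.1
  have hlast := exc_last he1 hr
  set K := uI (frows θ β p Q n ⌊δ * n⌋₊ bc) with hK
  obtain ⟨m', hm'⟩ : ∃ m', ret (nx ω) (bS K) e = m' + 1 := ⟨ret (nx ω) (bS K) e - 1, by omega⟩
  have hnear : nm (hdv (lst K ω e) - tlv e) ≤ w + 2 := by
    have a1 := near_hd (lst K ω e)
    have a2 : tlv (lst K ω e) = hdv ((nx ω)^[m'] e) := by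
      unfold lst
      rw [hm', Function.iterate_succ_apply', tlv_nx]
    have a3 := mem_Bq' (mem_coe.1 (hst m' (by omega)))
    have a4 := near_hd e
    rw [← a2] at a3
    have a5 := H871.Q.nm_tri (H871.Q.nm_tri a1 a3) a4
    omega
  have hy : yR Q x s' = yR Q x s := by
    by_contra hne
    have h1 := frow_far hp hQ hg hδ hδg hn hne h.sq'.row h.sq.row
    change (⌊δ * n⌋₊ : ℤ) - 3 ≤ nm (hdv (lst K ω e) - tlv e) at h1
    omega
  have h2 := h.sq'.row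
  rw [hy] at h2
  obtain ⟨k1, k2, k3⟩ := same_row hp hQ hg hδ hδg hn h he1 hr h.sq.row h2
  have k4 := staysK k2 hst
  have k5 := lstK k2
  set r := frows θ β p Q n ⌊δ * n⌋₊ bc (yR Q x s) with hrr
  have hL : 1 ≤ r.L := by
    have := hwL (yR Q x s)
    rw [← hrr] at this
    omega
  have hB : ¬ (w0 r true ∈ Bq (hdv e) w ∧ w0 r false ∈ Bq (hdv e) w) := by
    rintro ⟨g1, g2⟩
    have a1 := mem_Bq' g1
    have a2 := mem_Bq' g2
    rw [nm_swap] at a2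
    have a3 := H871.Q.nm_tri a1 a2
    have a4 : nm (w0 r true - w0 r false) = (r.L : ℤ) + 1 := by
      unfold w0
      rw [nm_sqm]
      cases r.o
      · rw [if_neg (by decide), if_pos rfl, abs_sub_comm, abs_of_nonneg (by omega)]; ring
      · rw [if_pos rfl, if_neg (by decide), abs_of_nonneg (by omega)]; ring
    have := hwL (yR Q x s)
    rw [← hrr] at this
    omega
  rcases box_cases hL (rays_small hw k1) hB k1 k4 with h3 | ⟨b, h3, h4⟩ | ⟨b, h3⟩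
  · left
    rw [k3]
    exact h3
  · right; left
    have hbx : Stays K ((tp θ r b).bx ρ : Set (ℤ × ℤ)) ω e := by
      intro k hk
      have a1 := mem_Bq' (mem_coe.1 (hst k hk))
      have a2 := mem_Bq' h3
      rw [nm_swap] at a2
      have a3 := H871.Q.nm_tri (H871.Q.nm_tri a1 a2) (nm_w1 (r := r) (b := b))
      rw [mem_coe]
      show _ ∈ Ico ((r.sq (te r b)).1 - ρ + ((1 : ℕ) : ℤ)) ((r.sq (te r b)).1 + ρ) ×ˢ
        Ico ((r.sq (te r b)).2 - ρ + ((1 : ℕ) : ℤ)) ((r.sq (te r b)).2 + ρ)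
      unfold nm at a3
      simp only [Prod.fst_sub, Prod.snd_sub] at a3
      rw [max_le_iff, abs_le, abs_le] at a3
      rw [mem_product, mem_Ico, mem_Ico]
      push_cast
      omega
    have hstr : Str K ω e := ⟨he1, row_sub _ h.sq.row, hr⟩
    rcases h4 with ⟨g1, g2⟩ | ⟨g1, g2⟩
    · exact ⟨_, b, true, mem_VT.2 ⟨Or.inl ⟨rfl, g1, k5 ▸ g2⟩, hstr, hbx⟩⟩
    · exact ⟨_, b, false, mem_VT.2 ⟨Or.inr ⟨rfl, g1, k5 ▸ g2⟩, hstr, hbx⟩⟩
  · right; right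
    rw [k5] at h3
    exact ⟨_, b, h3⟩

end frame

end Vale.Agent.P167.H662.D2
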