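import Vale.Agent.P167.H662.D2.C
import Vale.Agent.P167.H592.S.Tips
import Vale.Agent.P167.QX.L1E

/-!
# P167, general `q`, L2S (d): the weights of the strands at a mark, and the loops at a mark

`exit_le`: the weight of a strand in the window of a mark. `loop_le`: a loop in the window of a mark.
-/

namespace Vale.Agent.P167.H662.D2

open Finset
open Vale.Agent.P167.Top
open Vale.Agent.P167.A (plane)
open Vale.Agent.P167.BR (sites be)
open Vale.Agent.P167.FK (Bq Good)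
open Vale.Agent.P167.E6 (IsPolygon Encloses dir)
open Vale.Agent.P167.XDL (bS mem_bS)
open Vale.Agent.P167.H199 (strand ret Returns ret_min ret_le Gap mem_strand self_mem_strand)
open Vale.Agent.P167.H825 (enl pdir Marks)
open Vale.Agent.P167.H825.Q (Row Bc frow)
open Vale.Agent.P167.H680.T (rowC uI frows mem_uI)
open Vale.Agent.P167.H662 (hsite)
open Vale.Agent.P167.H398.Q (hB bcol)
open Vale.Agent.P167.H871 Vale.Agent.P167.H871.Q
open Vale.Agent.P167.QX (lst exc_last out_stays wS fLp returns_loop)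
open Vale.Agent.P167.H945.Q (face faces lrs SP tipL tipR relw natw)
open Vale.Agent.P167.Enl

/-! ### weights -/

section wt

variable {θ τ : ℝ} {K : Finset (ℤ × ℤ)} {a : Ed → Bool → ℝ} {ω : Cfg} {e : Ed}

/-- The lower bound of the factors. -/
noncomputable def c1 (θ : ℝ) : ℝ :=
  min (Real.sin (θ / 2)) (Real.sin (5 * θ / 2)) / (2 * Real.cos θ * Real.sin θ)

theorem cos_ge (h0 : 0 < θ) (h1 : θ ≤ Real.pi / 3) : 1 ≤ 2 * Real.cos θ := by
  have hpi := Real.pi_pos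
  have := Real.cos_le_cos_of_nonneg_of_le_pi h0.le (by linarith) h1
  rw [Real.cos_pi_div_three] at this
  linarith

theorem sin_ps (h0 : 0 < θ) (h1 : θ ≤ Real.pi / 3) : 0 < Real.sin θ := by
  have hpi := Real.pi_pos
  exact Real.sin_pos_of_pos_of_lt_pi h0 (by linarith)

theorem c1_pos (h0 : 0 < θ) (h1 : θ ≤ Real.pi / 3) : 0 < c1 θ := by
  have h2 := cos_ge h0 h1
  have h3 := sin_ps h0 h1
  exact div_pos (low_pos h0 h1) (mul_pos (by linarith) h3)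

theorem c1_le (h0 : 0 < θ) (h1 : θ ≤ Real.pi / 3) : c1 θ ≤ 1 := by
  have hpi := Real.pi_pos
  have h2 := cos_ge h0 h1
  have h3 := sin_ps h0 h1
  unfold c1
  rw [div_le_one (mul_pos (by linarith) h3)]
  refine (min_le_left _ _).trans ?_
  have h4 : Real.sin (θ / 2) ≤ Real.sin θ :=
    Real.sin_le_sin_of_le_of_le_pi_div_two (by linarith) (by linarith) (by linarith)
  nlinarith

/-- The weight as relative weight. -/
theorem wS_relw (h0 : 0 < θ) (h1 : θ ≤ Real.pi / 3) {t : ℤ} (ht : t ≠ 0) (hτ : τ = 1 ∨ τ = -1)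
    (hc : H199.cang plane θ a ω (strand (nx ω) (bS K) e) =
      θ / 4 * t + τ * ((3 * θ - Real.pi) / 2))
    (hpos : 0 ≤ Real.cos (H199.cang plane θ a ω (strand (nx ω) (bS K) e))) :
    wS θ K a ω e = relw θ t 0 τ τ * (if 0 ≤ τ * t then 2 * Real.cos θ else 1) := by
  have h2 := cos_ge h0 h1
  have h3 := sin_ps h0 h1
  unfold wS relw natw
  rw [hc] at hpos ⊢
  have e1 : θ / 4 * (t : ℝ) + 0 + (τ + τ) * ((3 * θ - Real.pi) / 4) =
      θ / 4 * t + τ * ((3 * θ - Real.pi) / 2) := by ring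
  rw [e1, abs_of_nonneg hpos]
  have ht' : (t : ℝ) ≠ 0 := by exact_mod_cast ht
  have hne : τ * (t : ℝ) ≠ 0 := mul_ne_zero (by rcases hτ with rfl | rfl <;> norm_num) ht'
  by_cases h4 : 0 < τ * (t : ℝ)
  · rw [if_pos ⟨rfl, h4⟩, if_pos h4.le, Real.sin_two_mul]
    have h5 : Real.cos θ ≠ 0 := by intro h; rw [h] at h2; norm_num at h2
    field_simp
  · rw [if_neg fun h => h4 h.2, if_neg fun h => h4 (lt_of_le_of_ne h hne.symm), mul_one]

end wt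

/-! ### products -/

section prod

variable {T : Type*} [Fintype T] {S B : Finset Ed} {V : T → Finset Ed} {W : T → ℝ}
  {c : ℝ} {e : Ed}

/-- The factor of an exit: `W i` on `V i`, `c` on `B`. -/
noncomputable def gam (V : T → Finset Ed) (W : T → ℝ) (B : Finset Ed) (c : ℝ) (e : Ed) : ℝ :=
  (∏ i, if e ∈ V i then W i else 1) * (if e ∈ B then c else 1)

theorem prod_gam (hV : ∀ i, V i ⊆ S) (hB : B ⊆ S) :
    ∏ e ∈ S, gam V W B c e = (∏ i, W i ^ (V i).card) * c ^ B.card := by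
  unfold gam
  rw [prod_mul_distrib, prod_comm]
  congr 1
  · refine prod_congr rfl fun i _ => ?_
    rw [prod_ite_mem, inter_eq_right.2 (hV i), prod_const]
  · rw [prod_ite_mem, inter_eq_right.2 hB, prod_const]

theorem gam_V (hd : ∀ i j, e ∈ V i → e ∈ V j → i = j) {i : T} (h : e ∈ V i) (hB : e ∉ B) :
    gam V W B c e = W i := by
  unfold gam
  rw [if_neg hB, mul_one, Fintype.prod_eq_single i, if_pos h]
  intro j hj
  rw [if_neg fun h' => hj (hd j i h' h)]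

theorem gam_B (h : ∀ i, e ∉ V i) (hB : e ∈ B) : gam V W B c e = c := by
  unfold gam
  rw [if_pos hB, prod_eq_one fun i _ => if_neg (h i), one_mul]

theorem gam_1 (h : ∀ i, e ∉ V i) (hB : e ∉ B) : gam V W B c e = 1 := by
  unfold gam
  rw [if_neg hB, prod_eq_one fun i _ => if_neg (h i), one_mul]

theorem gam_nonneg (hW : ∀ i, 0 ≤ W i) (hc : 0 ≤ c) : 0 ≤ gam V W B c e := by
  unfold gam
  refine mul_nonneg (prod_nonneg fun i _ => ?_) ?_
  · split_ifs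
    · exact hW i
    · norm_num
  · split_ifs
    · exact hc
    · norm_num

theorem one_le_prod' {s : Finset Ed} {φ : Ed → ℝ} (h : ∀ e ∈ s, 1 ≤ φ e) : 1 ≤ ∏ e ∈ s, φ e := by
  induction s using Finset.induction_on with
  | empty => simp
  | insert a s ha ih =>
    rw [prod_insert ha]
    exact one_le_mul_of_one_le_of_one_le (h _ (mem_insert_self _ _))
      (ih fun e he => h e (mem_insert_of_mem he))

/-- A lower bound with one large factor. -/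
theorem prod_lower {s : Finset Ed} {w γ φ : Ed → ℝ} (h : ∀ e ∈ s, γ e * φ e ≤ w e)
    (hγ : ∀ e ∈ s, 0 ≤ γ e) (hφ : ∀ e ∈ s, 1 ≤ φ e) {e₁ : Ed} (he : e₁ ∈ s) {C : ℝ} (hC : C ≤ φ e₁)
    (hC0 : 0 < C) : ∏ e ∈ s, γ e ≤ (∏ e ∈ s, w e) / C := by
  classical
  rw [le_div_iff₀ hC0]
  have h1 : ∏ e ∈ s, γ e * φ e ≤ ∏ e ∈ s, w e :=
    prod_le_prod (fun e he => mul_nonneg (hγ e he) (by linarith [hφ e he])) h
  rw [prod_mul_distrib] at h1
  refine le_trans (mul_le_mul_of_nonneg_left ?_ (prod_nonneg hγ)) h1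
  rw [← mul_prod_erase s φ he]
  have h2 := one_le_prod' (s := s.erase e₁) (φ := φ) fun e he => hφ e (mem_of_mem_erase he)
  have h3 := hφ e₁ he
  nlinarith

end prod

/-! ### the frame -/

section frame

variable {l : ℕ} {p : ZMod l → ℤ × ℤ} {n : ℕ} {S₀ : Finset (ℤ × ℤ)} {Q : Marks} {bc : Bc}
  {θ β : ℝ} {ω : Cfg} {e : Ed}

theorem col_τ (x : Fin l × Fin (Q.m + 1)) :
    (hτ l n Q bc x = 1 ∧ bcol p Q bc n x = false) ∨
      (hτ l n Q bc x = -1 ∧ bcol p Q bc n x = true) := by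
  unfold hτ H825.Q.stτ bcol
  have e1 : pA n Q x = ⌊Q.θ x.1 x.2 * n⌋₊ := rfl
  rw [e1]
  by_cases h : kOf l n (tB n Q) x.1 ⌊Q.θ x.1 x.2 * n⌋₊ < bc.ka l n (tB n Q)
  · left
    rw [if_pos h]
    exact ⟨rfl, by simp [h]⟩
  · right
    rw [if_neg h]
    exact ⟨rfl, by simp [h]⟩

theorem hB_mono {R R' : ℤ} (h : R ≤ R') {v : ℤ × ℤ} (hv : v ∈ hB p Q n R) : v ∈ hB p Q n R' := by
  obtain ⟨x, hx⟩ := mem_hB.1 hv
  refine mem_hB.2 ⟨x, ?_⟩
  unfold FK.Bq at hx ⊢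
  rw [mem_product, mem_Ico, mem_Ico] at hx ⊢
  omega

/-- The strands over the tips, all ends. -/
noncomputable def VV (θ β : ℝ) (p : ZMod l → ℤ × ℤ) (Q : Marks) (n : ℕ) (bc : Bc) (δ : ℝ) (ω : Cfg)
    (i : (Fin l × Fin (Q.m + 1)) × Bool × Bool) : Finset Ed :=
  VT θ (frows θ β p Q n ⌊δ * n⌋₊ bc i.1) (uI (frows θ β p Q n ⌊δ * n⌋₊ bc)) ⌊δ * n / 16⌋ ω i.2.1 i.2.2

/-- The weights. -/
noncomputable def WW (θ β : ℝ) (p : ZMod l → ℤ × ℤ) (Q : Marks) (n : ℕ) (bc : Bc) (δ : ℝ)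
    (i : (Fin l × Fin (Q.m + 1)) × Bool × Bool) : ℝ :=
  WT θ (frows θ β p Q n ⌊δ * n⌋₊ bc i.1) i.2.1 i.2.2

/-- Strands at the end edges of the rows. -/
def EndE {ι : Type} [Fintype ι] (r : ι → Row) (ω : Cfg) (e : Ed) : Prop :=
  ∃ y b, e = ee (r y) b ∨ lst (uI r) ω e = ee (r y) b

/-- Large strands which visit `H`. -/
def BigE (H : Finset (ℤ × ℤ)) (d : ℝ) (K : Finset (ℤ × ℤ)) (ω : Cfg) (e : Ed) : Prop :=
  (∃ x ∈ strand (nx ω) (bS K) e, hdv x ∈ H) ∧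
    ∃ e1 ∈ strand (nx ω) (bS K) e, ∃ e2 ∈ strand (nx ω) (bS K) e, d ≤ (nm (hdv e1 - hdv e2) : ℝ)

open Classical in
/-- The exceptional strands. -/
noncomputable def BB (θ β : ℝ) (p : ZMod l → ℤ × ℤ) (Q : Marks) (n : ℕ) (bc : Bc) (δ : ℝ) (ω : Cfg) :
    Finset Ed :=
  (bS (uI (frows θ β p Q n ⌊δ * n⌋₊ bc))).filter fun e =>
    hdv e ∉ uI (frows θ β p Q n ⌊δ * n⌋₊ bc) ∧ (∀ i, e ∉ VV θ β p Q n bc δ ω i) ∧
      (EndE (frows θ β p Q n ⌊δ * n⌋₊ bc) ω e ∨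
        BigE (hB p Q n ⌊4 * δ * n⌋) (δ * n / 64) (uI (frows θ β p Q n ⌊δ * n⌋₊ bc)) ω e)

variable (hp : IsPolygon p) (hD : Encloses p S₀) (hQ : Q.Ok) {g δ : ℝ} (hg : Gap Q l g)
  (hδ : 0 < δ) (hδg : 4 * δ ≤ g) (hn : 1024 ≤ δ * n) (hb : bc.Ok l Q) (hbg : BGap l Q g bc)
  (hθ : 0 < θ) (hθ' : θ ≤ Real.pi / 3)
  (hβ : β = (θ - Real.pi) / 2 ∨ β = (Real.pi - 3 * θ) / 2)

include hp hD hQ hg hδ hδg hn hbg hθ hθ' hβ in
/-- The rows are long. -/
theorem row_len (y : Fin l × Fin (Q.m + 1)) :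
    δ * n ≤ (frows θ β p Q n ⌊δ * n⌋₊ bc y).L := by
  have hpi := Real.pi_pos
  have hok := frows_okg (bc := bc) hp hD hQ hθ (by linarith) hβ hg hbg hδ hδg (by linarith) y
  have h1 := hok.len
  have h2 : 4 * δ * n ≤ g * n := mul_le_mul_of_nonneg_right hδg (Nat.cast_nonneg n)
  linarith

include hp hD hQ hg hδ hδg hn hbg hθ hθ' hβ in
/-- The sets of the strands over the tips are disjoint. -/
theorem VV_disj {i j : (Fin l × Fin (Q.m + 1)) × Bool × Bool} (hi : e ∈ VV θ β p Q n bc δ ω i)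
    (hj : e ∈ VV θ β p Q n bc δ ω j) : i = j := by
  obtain ⟨y, b, c⟩ := i
  obtain ⟨y', b', c'⟩ := j
  obtain ⟨h1, h2, h3⟩ := mem_VT.1 hi
  obtain ⟨h1', -, h3'⟩ := mem_VT.1 hj
  simp only at h1 h1' h3 h3'
  have hf : ∃ b1, e ∈ faces (frows θ β p Q n ⌊δ * n⌋₊ bc y) b1 0
      (frows θ β p Q n ⌊δ * n⌋₊ bc y).L := by
    rcases h1 with ⟨-, g, -⟩ | ⟨-, g, -⟩ <;> exact ⟨_, g⟩
  have hf' : ∃ b1, e ∈ faces (frows θ β p Q n ⌊δ * n⌋₊ bc y') b1 0
      (frows θ β p Q n ⌊δ * n⌋₊ bc y').L := by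
    rcases h1' with ⟨-, g, -⟩ | ⟨-, g, -⟩ <;> exact ⟨_, g⟩
  obtain ⟨b1, hb1⟩ := hf
  obtain ⟨b2, hb2⟩ := hf'
  obtain rfl := frows_disj hp hQ hg hδ hδg (by linarith) (face_tl (row_sub y) hb1 h2.out)
    (face_tl (row_sub y') hb2 h2.out)
  have hL := row_len (bc := bc) hp hD hQ hg hδ hδg hn hbg hθ hθ' hβ y
  have hbb : b = b' := by
    by_contra hne
    have hρ : (⌊δ * n / 16⌋ : ℝ) ≤ δ * n / 16 := Int.floor_le _
    have hLρ : 2 * ⌊δ * n / 16⌋ + 1 < ((frows θ β p Q n ⌊δ * n⌋₊ bc y).L : ℤ) := by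
      have : ((2 * ⌊δ * n / 16⌋ + 1 : ℤ) : ℝ) < (((frows θ β p Q n ⌊δ * n⌋₊ bc y).L : ℤ) : ℝ) := by
        push_cast
        linarith
      exact_mod_cast this
    have k1 := mem_coe.1 (h3 0 h2.rt.spec.1)
    have k2 := mem_coe.1 (h3' 0 h2.rt.spec.1)
    refine (alm_tp (θ := θ)).disj (alm_tp (θ := θ)) ?_ k1 k2
    rw [sq_sqm, sq_sqm, nm_sqm]
    unfold te
    rcases (by cases b <;> cases b' <;> cases h : (frows θ β p Q n ⌊δ * n⌋₊ bc y).o <;> simp_all :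
      ((frows θ β p Q n ⌊δ * n⌋₊ bc y).o = b ∧ (frows θ β p Q n ⌊δ * n⌋₊ bc y).o ≠ b') ∨
      ((frows θ β p Q n ⌊δ * n⌋₊ bc y).o ≠ b ∧ (frows θ β p Q n ⌊δ * n⌋₊ bc y).o = b'))
      with ⟨g1, g2⟩ | ⟨g1, g2⟩
    · rw [if_pos g1, if_neg g2]
      have := neg_le_abs (((0 : ℕ) : ℤ) - ((frows θ β p Q n ⌊δ * n⌋₊ bc y).L - 1 : ℕ))
      omega
    · rw [if_neg g1, if_pos g2]
      have := le_abs_self ((((frows θ β p Q n ⌊δ * n⌋₊ bc y).L - 1 : ℕ) : ℤ) - (0 : ℕ))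
      omega
  subst hbb
  have hcc : c = c' := by
    have hbn : b ≠ !b := by cases b <;> decide
    rcases h1 with ⟨rfl, g1, -⟩ | ⟨rfl, g1, -⟩ <;> rcases h1' with ⟨rfl, g2, -⟩ | ⟨rfl, g2, -⟩
    · rfl
    · exact absurd g2 (faces_disj (Or.inl hbn) g1)
    · exact absurd g2 (faces_disj (Or.inl hbn.symm) g1)
    · rfl
  rw [hcc]

include hp hD hQ hg hδ hδg hn hb hbg hθ hθ' hβ in
/-- The colour of a tip in the window of a mark. -/
theorem tip_col (hf : H398.Q.Frz (frows θ β p Q n ⌊δ * n⌋₊ bc) ω) {R : ℤ}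
    (hR : (2 * R : ℝ) + 4 < g * n) (x : Fin l × Fin (Q.m + 1)) {y : Fin l × Fin (Q.m + 1)}
    {v : ℤ × ℤ} (hv : v ∈ (frows θ β p Q n ⌊δ * n⌋₊ bc y).I) (hx : v ∈ Bq (hsite p Q n x) R) :
    (frows θ β p Q n ⌊δ * n⌋₊ bc y).τ v = hτ l n Q bc x := by
  have hpi := Real.pi_pos
  have hok := frows_okg (bc := bc) hp hD hQ hθ (by linarith) hβ hg hbg hδ hδg (by linarith) y
  have h1 := (Frz.of_ok hok (hf y)).hf v hv
  have h2 := frz_box hp hD hQ hg hδ hδg (by linarith) hb hbg hf hR x (row_sub y hv) hx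
  rcases h1 with ⟨a1, a2⟩ | ⟨a1, a2⟩ <;> rcases col_τ (bc := bc) (n := n) (p := p) x with
    ⟨a3, a4⟩ | ⟨a3, a4⟩
  · rw [a1, a3]
  · rw [h2, a4] at a2; cases a2
  · rw [h2, a4] at a2; cases a2
  · rw [a1, a3]

include hp hD hQ hg hδ hδg hn hb hbg hθ hθ' hβ in
/-- The colour of the tip of a strand over it, in the window of a mark. -/
theorem VV_col (hf : H398.Q.Frz (frows θ β p Q n ⌊δ * n⌋₊ bc) ω) {R : ℕ}
    (hR : (2 * R : ℝ) + 8 < g * n) {x : Fin l × Fin (Q.m + 1)}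
    (hin : hdv e ∈ Bq (hsite p Q n x) R) {i : (Fin l × Fin (Q.m + 1)) × Bool × Bool}
    (hV : e ∈ VV θ β p Q n bc δ ω i) :
    (frows θ β p Q n ⌊δ * n⌋₊ bc i.1).τ ((frows θ β p Q n ⌊δ * n⌋₊ bc i.1).sq
        (te (frows θ β p Q n ⌊δ * n⌋₊ bc i.1) i.2.1)) = hτ l n Q bc x := by
  obtain ⟨y, b, c⟩ := i
  simp only
  have hn16 : 16 ≤ δ * n := by linarith
  obtain ⟨-, h2, h3⟩ := mem_VT.1 hV
  have k2 := (alm_tp (θ := θ)).nm (mem_coe.1 (h3 0 h2.rt.spec.1))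
  rw [Function.iterate_zero, id] at k2
  simp only at k2
  have hL := row_len (bc := bc) hp hD hQ hg hδ hδg hn hbg hθ hθ' hβ y
  have hL1 : 1 ≤ (frows θ β p Q n ⌊δ * n⌋₊ bc y).L := by
    have : (1 : ℝ) ≤ ((frows θ β p Q n ⌊δ * n⌋₊ bc y).L : ℝ) := by linarith
    exact_mod_cast this
  obtain ⟨k, hk1, hk2⟩ : ∃ k : Fin 3, k ≠ 2 ∧ H945.Q.ctr (frows θ β p Q n ⌊δ * n⌋₊ bc y) k =
      (frows θ β p Q n ⌊δ * n⌋₊ bc y).sq (te (frows θ β p Q n ⌊δ * n⌋₊ bc y) b) := by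
    unfold te H945.Q.ctr
    by_cases ho : (frows θ β p Q n ⌊δ * n⌋₊ bc y).o = b
    · rw [if_pos ho]
      exact ⟨0, by decide, rfl⟩
    · rw [if_neg ho]
      exact ⟨1, by decide, rfl⟩
  rw [← hk2] at k2
  obtain ⟨z, hz⟩ := far_hole (θ := θ) (β := β) (bc := bc) hp hQ hg hδ hδg hn16 y hk1 k2
  rw [hk2] at k2
  have hfl : (⌊δ * n⌋₊ : ℝ) ≤ δ * n := Nat.floor_le (by positivity)
  have hρ : (⌊δ * n / 16⌋ : ℝ) ≤ δ * n / 16 := Int.floor_le _
  have hgn : 4 * δ * n ≤ g * n := mul_le_mul_of_nonneg_right hδg (Nat.cast_nonneg n)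
  have hzx : z = x := by
    by_contra hne
    have h2 := box_disj (R := max (R : ℤ) (⌊δ * n / 16⌋ + ⌊δ * n⌋₊ + 3)) hp hQ hg (n := n)
      (by
        push_cast
        rcases max_cases (R : ℝ) ((⌊δ * n / 16⌋ : ℝ) + ⌊δ * n⌋₊ + 3) with ⟨h, -⟩ | ⟨h, -⟩ <;>
          rw [h] <;> linarith) hne
    refine Finset.disjoint_left.1 h2 (Bq_of (v := hdv e) ?_) ?_
    · exact lt_of_le_of_lt hz (lt_of_lt_of_le (by omega) (le_max_right _ _))
    · have := le_max_left (R : ℤ) (⌊δ * n / 16⌋ + ⌊δ * n⌋₊ + 3)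
      generalize max (R : ℤ) (⌊δ * n / 16⌋ + ⌊δ * n⌋₊ + 3) = M at this ⊢
      unfold FK.Bq at hin ⊢
      rw [mem_product, mem_Ico, mem_Ico] at hin ⊢
      omega
  subst hzx
  refine tip_col hp hD hQ hg hδ hδg hn hb hbg hθ hθ' hβ hf
    (R := 2 * ⌊δ * n / 16⌋ + ⌊δ * n⌋₊ + 3) ?_ z (mem_image.2 ⟨_, mem_range.2 ?_, rfl⟩) ?_
  · push_cast
    linarith
  · unfold te
    split_ifs <;> omega
  · rw [nm_swap] at k2
    have k4 := H871.Q.nm_tri k2 hz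
    exact Bq_of (by omega)

include hp hD hQ hg hδ hδg hn hb hbg hθ hθ' hβ in
/-- **The weight of a strand in the window of a mark.** -/
theorem exit_le (hf : H398.Q.Frz (frows θ β p Q n ⌊δ * n⌋₊ bc) ω) {R : ℕ}
    (hR1 : ⌊δ * n⌋₊ + 3 ≤ R) (hR2' : (2 * R : ℝ) + 8 < g * n)
    (x : Fin l × Fin (Q.m + 1)) (he : e ∈ bS (uI (frows θ β p Q n ⌊δ * n⌋₊ bc)))
    (he1 : hdv e ∉ uI (frows θ β p Q n ⌊δ * n⌋₊ bc))
    (hr : Returns (nx ω) (bS (uI (frows θ β p Q n ⌊δ * n⌋₊ bc))) e)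
    (hin : ∀ k < ret (nx ω) (bS (uI (frows θ β p Q n ⌊δ * n⌋₊ bc))) e,
      hdv ((nx ω)^[k] e) ∈ Bq (hsite p Q n x) R) :
    ∃ t : ℤ, H199.cang plane θ (rowC θ (frows θ β p Q n ⌊δ * n⌋₊ bc) 0).ph ω
        (strand (nx ω) (bS (uI (frows θ β p Q n ⌊δ * n⌋₊ bc))) e) =
          θ / 4 * t + hτ l n Q bc x * ((3 * θ - Real.pi) / 2) ∧
      gam (VV θ β p Q n bc δ ω) (WW θ β p Q n bc δ) (BB θ β p Q n bc δ ω) (c1 θ) e *
        (if 0 ≤ hτ l n Q bc x * t then 2 * Real.cos θ else 1) ≤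
      wS θ (uI (frows θ β p Q n ⌊δ * n⌋₊ bc)) (rowC θ (frows θ β p Q n ⌊δ * n⌋₊ bc) 0).ph ω e := by
  have hpi := Real.pi_pos
  have hc := cos_ge hθ hθ'
  have hs := sin_ps hθ hθ'
  have hs2 : 0 < Real.sin (2 * θ) := by rw [Real.sin_two_mul]; nlinarith
  have hn16 : 16 ≤ δ * n := by linarith
  obtain ⟨t, i, j, f, f', s, s', F⟩ :=
    ftab hp hD hQ hg hδ hδg hn16 hR1 hR2' hb hbg x he he1 hr hin
  obtain ⟨hW, hWn⟩ := frame_holeW (θ := θ) (β := β) (bc := bc) hp hD hQ hg hδ hδg hn16 hb hbg hR1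
    hR2' x
  have hlow := hW.low (hτ_or l n Q bc x) hθ hθ' he hr
    (fun k hk => hWn _ (hin k hk) (out_stays he1 hk))
  have hlp := low_pos hθ hθ'
  have hcos : 0 ≤ Real.cos (H199.cang plane θ (rowC θ (frows θ β p Q n ⌊δ * n⌋₊ bc) 0).ph ω
        (strand (nx ω) (bS (uI (frows θ β p Q n ⌊δ * n⌋₊ bc))) e)) := by linarith
  have hrel := fun ht : t ≠ 0 => wS_relw (K := uI (frows θ β p Q n ⌊δ * n⌋₊ bc)) hθ hθ' ht
    (hτ_or l n Q bc x) F.ang hcos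
  have hρ : (⌊δ * n / 16⌋ : ℝ) ≤ δ * n / 16 := Int.floor_le _
  have hρ1 : 1 < ⌊δ * n / 16⌋ := by
    have : (2 : ℤ) ≤ ⌊δ * n / 16⌋ := Int.le_floor.2 (by push_cast; linarith)
    omega
  refine ⟨t, F.ang, ?_⟩
  by_cases hV : ∃ a, e ∈ VV θ β p Q n bc δ ω a
  · obtain ⟨⟨y, b, c⟩, hV⟩ := hV
    have hL := row_len (bc := bc) hp hD hQ hg hδ hδg hn hbg hθ hθ' hβ y
    have hLρ : ⌊δ * n / 16⌋ < ((frows θ β p Q n ⌊δ * n⌋₊ bc y).L : ℤ) := by
      have : ((⌊δ * n / 16⌋ : ℤ) : ℝ) < (((frows θ β p Q n ⌊δ * n⌋₊ bc y).L : ℤ) : ℝ) := by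
        push_cast
        linarith
      exact_mod_cast this
    have ht := VT_t hp hQ hg hδ hδg hn16 F hρ1 hLρ hV
    have hBB : e ∉ BB θ β p Q n bc δ ω := fun h => by
      classical
      exact (mem_filter.1 h).2.2.1 _ hV
    rw [gam_V (fun i j => VV_disj hp hD hQ hg hδ hδg hn hbg hθ hθ' hβ) hV hBB]
    have hL1 : 1 ≤ (frows θ β p Q n ⌊δ * n⌋₊ bc y).L := by
      have : (1 : ℝ) ≤ ((frows θ β p Q n ⌊δ * n⌋₊ bc y).L : ℝ) := by linarith
      exact_mod_cast this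
    have hcol := VV_col hp hD hQ hg hδ hδg hn hb hbg hθ hθ' hβ hf hR2' (hin 0 hr.spec.1) hV
    simp only at hcol
    have hWW : WW θ β p Q n bc δ (y, b, c) =
        relw θ (t : ℝ) 0 (hτ l n Q bc x) (hτ l n Q bc x) := by
      show relw θ (if c then 4 else -4) 0 _ _ = _
      simp only
      rw [hcol, ht]
      cases c <;> norm_num
    rw [hWW, hrel (by rw [ht]; cases c <;> norm_num)]
  · push Not at hV
    by_cases hBB : e ∈ BB θ β p Q n bc δ ω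
    · rw [gam_B hV hBB]
      have h1 : c1 θ * (if 0 ≤ hτ l n Q bc x * (t : ℝ) then 2 * Real.cos θ else 1) ≤
          c1 θ * (2 * Real.cos θ) := by
        refine mul_le_mul_of_nonneg_left ?_ (c1_pos hθ hθ').le
        split_ifs
        · exact le_rfl
        · exact hc
      refine h1.trans ?_
      unfold wS c1
      rw [le_div_iff₀ hs]
      have h2 : min (Real.sin (θ / 2)) (Real.sin (5 * θ / 2)) / (2 * Real.cos θ * Real.sin θ) *
          (2 * Real.cos θ) * Real.sin θ = min (Real.sin (θ / 2)) (Real.sin (5 * θ / 2)) := by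
        have : Real.cos θ ≠ 0 := by intro h; rw [h] at hc; norm_num at hc
        field_simp
      rw [h2]
      linarith
    · rw [gam_1 hV hBB, one_mul]
      have hnb : ¬ (EndE (frows θ β p Q n ⌊δ * n⌋₊ bc) ω e ∨ BigE (hB p Q n ⌊4 * δ * n⌋)
          (δ * n / 64) (uI (frows θ β p Q n ⌊δ * n⌋₊ bc)) ω e) := fun h => by
        classical
        exact hBB (mem_filter.2 ⟨he, he1, hV, h⟩)
      rw [not_or] at hnb
      have ht : t = 2 ∨ t = -2 := by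
        by_cases hH : ∀ k < ret (nx ω) (bS (uI (frows θ β p Q n ⌊δ * n⌋₊ bc))) e,
            hdv ((nx ω)^[k] e) ∉ hB p Q n (⌊δ * n⌋₊ + 4)
        · exact nf hp hD hQ hg hδ hδg hn16 F he1 hr hH
        · push Not at hH
          obtain ⟨k, hk, hkH⟩ := hH
          have hfl : (⌊δ * n⌋₊ : ℝ) ≤ δ * n := Nat.floor_le (by positivity)
          have h4 : (⌊δ * n⌋₊ : ℤ) + 4 ≤ ⌊4 * δ * n⌋ := Int.le_floor.2 (by push_cast; linarith)
          have hkH' := hB_mono h4 hkH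
          have hdm : ∀ e1 ∈ strand (nx ω) (bS (uI (frows θ β p Q n ⌊δ * n⌋₊ bc))) e,
              ∀ e2 ∈ strand (nx ω) (bS (uI (frows θ β p Q n ⌊δ * n⌋₊ bc))) e,
              (nm (hdv e1 - hdv e2) : ℝ) < δ * n / 64 := by
            intro e1 g1 e2 g2
            by_contra hcon
            push Not at hcon
            exact hnb.2 ⟨⟨_, mem_strand.2 ⟨k, hk, rfl⟩, hkH'⟩, e1, g1, e2, g2, hcon⟩
          have hw0 : (⌊δ * n / 64⌋ : ℝ) ≤ δ * n / 64 := Int.floor_le _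
          have hw1 : 16 ≤ ⌊δ * n / 64⌋ := Int.le_floor.2 (by push_cast; linarith)
          have hfl2 : δ * n < ⌊δ * n⌋₊ + 1 := Nat.lt_floor_add_one _
          have hρ2 : δ * n / 16 < ⌊δ * n / 16⌋ + 1 := Int.lt_floor_add_one _
          have b1 : ⌊δ * n / 64⌋ + 1 + 5 < (⌊δ * n⌋₊ : ℤ) := by
            have : ((⌊δ * n / 64⌋ + 1 + 5 : ℤ) : ℝ) < ((⌊δ * n⌋₊ : ℤ) : ℝ) := by
              push_cast; linarith
            exact_mod_cast this
          have b2 : 2 * (⌊δ * n / 64⌋ + 1) + 2 ≤ ⌊δ * n / 16⌋ := by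
            have : ((2 * (⌊δ * n / 64⌋ + 1) + 2 : ℤ) : ℝ) < ((⌊δ * n / 16⌋ + 1 : ℤ) : ℝ) := by
              push_cast; linarith
            have : 2 * (⌊δ * n / 64⌋ + 1) + 2 < ⌊δ * n / 16⌋ + 1 := by exact_mod_cast this
            omega
          have b3 : ∀ y, 2 * (⌊δ * n / 64⌋ + 1) ≤
              ((frows θ β p Q n ⌊δ * n⌋₊ bc y).L : ℤ) := by
            intro y
            have hL := row_len (bc := bc) hp hD hQ hg hδ hδg hn hbg hθ hθ' hβ y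
            have : ((2 * (⌊δ * n / 64⌋ + 1) : ℤ) : ℝ) ≤
                (((frows θ β p Q n ⌊δ * n⌋₊ bc y).L : ℤ) : ℝ) := by
              push_cast; linarith
            exact_mod_cast this
          rcases small_cases hp hQ hg hδ hδg hn16 F (w := ⌊δ * n / 64⌋ + 1)
            (ρ := ⌊δ * n / 16⌋) (by omega) b1 b2 b3 he1 hr (fun m hm => by
              rw [mem_coe]
              apply Bq_of
              have g1 := hdm _ (mem_strand.2 ⟨m, hm, rfl⟩) e (self_mem_strand hr)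
              exact Int.lt_add_one_of_le (Int.le_floor.2 g1.le)) with h | ⟨y, b, c, h⟩ | h
          · exact h
          · exact absurd h (hV (y, b, c))
          · exact absurd h hnb.1
      rw [hrel (by rcases ht with rfl | rfl <;> norm_num),
        relw_nat hs hs2 (hτ_or l n Q bc x) (by rcases ht with rfl | rfl <;> norm_num), one_mul]

end frame

end Vale.Agent.P167.H662.D2
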