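import Vale.Agent.P167.H662.D2.E
import Vale.Agent.P167.H680.S.L2F

/-!
# P167, general `q`: **`L2S` is a theorem**
-/

namespace Vale.Agent.P167.H662.D2

/-- **(L2S) The loops of the frame without flow.** -/
theorem l2S {θ β : ℝ} (hθ : 0 < θ) (hθ' : θ ≤ Real.pi / 3)
    (hβ : β = (θ - Real.pi) / 2 ∨ β = (Real.pi - 3 * θ) / 2) : H398.Q.L2S θ β :=
  H680.S.l2s_d hθ hθ' hβ (frameD hθ hθ' hβ)

end Vale.Agent.P167.H662.D2
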